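import Vale.Agent.P148M96.Mark
import Vale.Agent.P148.R2.H729.Q1

/-!
# P148: independent points seen in a window, compared with the Poisson process
-/

open MeasureTheory Set Metric Topology Filter ProbabilityTheory
open scoped ENNReal NNReal Nat

namespace Vale.Agent.N148

open _root_.P148
open _root_.P148.H729 (Conf voids isPiSystem_voids measurable_void measurableSet_voidEvent
  void_prob')
open Vale.Agent.P148M96 (sec sec_meas sec_bdd inten_eq)

theorem poi_le {m : ℝ} (hm : 0 < m) (j : ℕ) : Real.exp (-m) * m ^ j / j ! ≤ 2 / √m := by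
  have hs : 0 < √m := Real.sqrt_pos.2 hm
  have hf : (0 : ℝ) < j ! := by positivity
  rcases le_or_gt (m / 2) j with h | h
  · have hj : (0 : ℝ) < j := by linarith
    have h1 : (m / j) ^ j ≤ Real.exp (m - j) := by
      have e : Real.exp (m - j) = Real.exp (m / j - 1) ^ j := by
        rw [← Real.exp_nat_mul]
        congr 1
        field_simp
      rw [e]
      exact pow_le_pow_left₀ (by positivity) (by linarith [Real.add_one_le_exp (m / j - 1)]) j
    have h2 := Stirling.le_factorial_stirling j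
    have h3 : √m ≤ √(2 * Real.pi * j) :=
      Real.sqrt_le_sqrt (by nlinarith [Real.pi_gt_three])
    have h4 : Real.exp (-m) * m ^ j ≤ (j / Real.exp 1) ^ j := by
      rw [div_pow, div_le_iff₀ (by positivity)] at h1
      rw [div_pow, ← Real.exp_nat_mul, mul_one, le_div_iff₀ (Real.exp_pos _)]
      calc Real.exp (-m) * m ^ j * Real.exp j
          ≤ Real.exp (-m) * (Real.exp (m - j) * j ^ j) * Real.exp j := by gcongr
        _ = Real.exp (-m + (m - j) + j) * j ^ j := by rw [Real.exp_add, Real.exp_add]; ring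
        _ = j ^ j := by rw [show -m + (m - j) + j = 0 by ring, Real.exp_zero, one_mul]
    rw [div_le_div_iff₀ hf hs]
    have h5 : 0 ≤ (j / Real.exp 1) ^ j := by positivity
    calc Real.exp (-m) * m ^ j * √m ≤ (j / Real.exp 1) ^ j * √(2 * Real.pi * j) := by gcongr
      _ ≤ 2 * j ! := by linarith
  · have h1 := Real.pow_div_factorial_le_exp (m / 2) (by positivity) j
    have h2 : (2 : ℝ) ^ j ≤ Real.exp (0.35 * m) := by
      rw [← Real.exp_log two_pos, ← Real.exp_nat_mul]
      refine Real.exp_le_exp.2 ?_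
      have := Real.log_two_lt_d9
      have h0 : (0 : ℝ) ≤ j := j.cast_nonneg
      nlinarith
    have h3 : Real.exp (-m) * m ^ j / j ! ≤ Real.exp (-(0.15 * m)) := by
      calc Real.exp (-m) * m ^ j / j ! = Real.exp (-m) * (2 ^ j * ((m / 2) ^ j / j !)) := by
            rw [div_pow]; field_simp
        _ ≤ Real.exp (-m) * (Real.exp (0.35 * m) * Real.exp (m / 2)) := by gcongr
        _ = Real.exp (-(0.15 * m)) := by
            rw [← Real.exp_add, ← Real.exp_add]; congr 1; ring
    refine h3.trans ?_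
    rw [Real.exp_neg, inv_eq_one_div, div_le_div_iff₀ (Real.exp_pos _) hs]
    have h4 := Real.add_one_le_exp (0.15 * m)
    have h5 := Real.sq_sqrt hm.le
    nlinarith [sq_nonneg (√m - 2)]

theorem fac_le {n : ℕ} (hn : 1 ≤ n) : (n ! : ℝ) ≤ 3 * √n * (Real.exp (-n) * n ^ n) := by
  obtain ⟨k, rfl⟩ := Nat.exists_eq_add_of_le' hn
  have h := Stirling.stirlingSeq'_antitone (Nat.zero_le k)
  simp only [Function.comp, Nat.succ_eq_add_one, zero_add, Stirling.stirlingSeq_one] at h
  rw [Stirling.stirlingSeq, div_le_iff₀ (by positivity), Real.sqrt_mul zero_le_two] at h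
  refine h.trans ?_
  have e : (((k + 1 : ℕ) : ℝ) / Real.exp 1) ^ (k + 1) =
      Real.exp (-((k + 1 : ℕ) : ℝ)) * ((k + 1 : ℕ) : ℝ) ^ (k + 1) := by
    rw [div_pow, ← Real.exp_nat_mul, mul_one, Real.exp_neg]
    field_simp
  rw [e]
  have h2 : (0 : ℝ) < √2 := by positivity
  have h3 := Real.exp_one_lt_d9
  calc Real.exp 1 / √2 * (√2 * √((k + 1 : ℕ) : ℝ) *
        (Real.exp (-((k + 1 : ℕ) : ℝ)) * ((k + 1 : ℕ) : ℝ) ^ (k + 1)))
      = Real.exp 1 * √((k + 1 : ℕ) : ℝ) *
        (Real.exp (-((k + 1 : ℕ) : ℝ)) * ((k + 1 : ℕ) : ℝ) ^ (k + 1)) := by field_simp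
    _ ≤ _ := by gcongr; linarith

/-- The binomial weights are bounded by a multiple of the Poisson weights. -/
theorem ratio {q : ℝ} (h0 : 0 < q) (h1 : q < 1) {n k : ℕ} (hn : 1 ≤ n) (hk : k ≤ n) :
    (n.choose k : ℝ) * q ^ k * (1 - q) ^ (n - k) ≤
      6 / √(1 - q) * (Real.exp (-(n * q)) * (n * q) ^ k / k !) := by
  obtain ⟨j, rfl⟩ := Nat.exists_eq_add_of_le hk
  rw [Nat.add_sub_cancel_left]
  set n := k + j with hn'
  have hn0 : (0 : ℝ) < n := by exact_mod_cast hn
  have hq : 0 < 1 - q := by linarith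
  have e1 : (n.choose k : ℝ) = n ! / (k ! * j !) := Nat.cast_add_choose ℝ
  have a := poi_le (mul_pos hn0 hq) j
  have b := fac_le hn
  have e2 : Real.exp (-(n : ℝ)) = Real.exp (-(n * q)) * Real.exp (-(n * (1 - q))) := by
    rw [← Real.exp_add]; congr 1; ring
  have e3 : (n : ℝ) ^ n = (n : ℝ) ^ k * (n : ℝ) ^ j := pow_add _ _ _
  have hs : 0 < √(n : ℝ) := Real.sqrt_pos.2 hn0
  have hs' : 0 < √(1 - q) := Real.sqrt_pos.2 hq
  rw [Real.sqrt_mul hn0.le] at a
  calc (n.choose k : ℝ) * q ^ k * (1 - q) ^ j = n ! * (q ^ k * (1 - q) ^ j / (k ! * j !)) := by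
        rw [e1]; ring
    _ ≤ 3 * √n * (Real.exp (-n) * n ^ n) * (q ^ k * (1 - q) ^ j / (k ! * j !)) := by gcongr
    _ = 3 * √n * (Real.exp (-(n * (1 - q))) * (n * (1 - q)) ^ j / j !) *
        (Real.exp (-(n * q)) * (n * q) ^ k / k !) := by
        rw [e2, e3, mul_pow, mul_pow]; field_simp
    _ ≤ 3 * √n * (2 / (√n * √(1 - q))) * (Real.exp (-(n * q)) * (n * q) ^ k / k !) := by gcongr
    _ = _ := by field_simp; norm_num

/-- The points of `Y` in the window `V`, all white. -/
def win (V Y : Set ℂ) : Set Pt := (Y ∩ V) ×ˢ {false}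

theorem win_void (V Y : Set ℂ) (A : Set Pt) : win V Y ∩ A = ∅ ↔ ∀ z ∈ Y, z ∉ V ∩ sec A false := by
  rw [eq_empty_iff_forall_notMem]
  constructor
  · exact fun h z hz k => h (z, false) ⟨⟨⟨hz, k.1⟩, rfl⟩, k.2⟩
  · rintro h ⟨z, b⟩ ⟨⟨k1, k2⟩, k3⟩
    obtain rfl : b = false := k2
    exact h z k1.1 ⟨k1.2, k3⟩

theorem win_range (V : Set ℂ) (k : ℕ) (A : Set Pt) :
    {y : Fin k → ℂ | win V (range y) ∩ A = ∅} = univ.pi fun _ => (V ∩ sec A false)ᶜ := by
  ext y
  simp only [mem_ofPred_eq, win_void, forall_mem_range, Set.mem_pi, mem_univ, true_implies,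
    mem_compl_iff]

theorem win_pts (V : Set ℂ) (T A : Set Pt) :
    win V (pts T) ∩ A = ∅ ↔ T ∩ (V ∩ sec A false) ×ˢ univ = ∅ := by
  rw [win_void, eq_empty_iff_forall_notMem]
  constructor
  · exact fun h q k => h q.1 ⟨q, k.1, rfl⟩ k.2.1
  · rintro h _ ⟨q, hq, rfl⟩ k
    exact h q ⟨hq, k, mem_univ _⟩

variable {V : Set ℂ}

theorem meas_range (hV : MeasurableSet V) (k : ℕ) :
    @Measurable _ _ _ voidSigma fun y : Fin k → ℂ => win V (range y) :=
  measurable_void fun A hA _ => by
    rw [win_range]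
    exact MeasurableSet.univ_pi fun _ => (hV.inter (sec_meas hA false)).compl

theorem bdd_sec {A : Set Pt} (hb : Bdd A) : Bdd ((V ∩ sec A false) ×ˢ univ) := by
  obtain ⟨r, hr⟩ := (sec_bdd hb false).subset_ball 0
  exact ⟨r, prod_mono (inter_subset_right.trans hr) subset_rfl⟩

theorem meas_pts (hV : MeasurableSet V) :
    @Measurable _ _ voidSigma voidSigma fun T : Set Pt => win V (pts T) :=
  @measurable_void _ voidSigma _ fun A hA hb => by
    simp only [win_pts]
    exact measurableSet_voidEvent ((hV.inter (sec_meas hA false)).prod .univ) (bdd_sec hb)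

/-- The law of the points in the window, for `k` independent points of law `ν`. -/
noncomputable def law (V : Set ℂ) (ν : Measure ℂ) (k : ℕ) : Measure Conf :=
  @Measure.map _ _ _ voidSigma (fun y : Fin k → ℂ => win V (range y)) (Measure.pi fun _ => ν)

/-- The void event. -/
def vd (A : Set Pt) : Set Conf := show Set (Set Pt) from {T | T ∩ A = ∅}

theorem law_apply (hV : MeasurableSet V) (ν : Measure ℂ) (k : ℕ) {E : Set Conf}
    (hE : MeasurableSet E) :
    law V ν k E = (Measure.pi fun _ : Fin k => ν) {y | E (win V (range y))} :=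
  @Measure.map_apply _ _ _ voidSigma _ _ (meas_range hV k) _ hE

theorem law_void (hV : MeasurableSet V) (ν : Measure ℂ) [IsProbabilityMeasure ν] (k : ℕ)
    {A : Set Pt} (hA : MeasurableSet A) (hb : Bdd A) :
    law V ν k (vd A) = ENNReal.ofReal ((1 - (ν (V ∩ sec A false)).toReal) ^ k) := by
  rw [law_apply hV ν k (E := vd A) (measurableSet_voidEvent hA hb)]
  change (Measure.pi fun _ : Fin k => ν) {y | win V (range y) ∩ A = ∅} = _
  have h1 : (ν (V ∩ sec A false)).toReal ≤ 1 := measureReal_le_one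
  rw [win_range, Measure.pi_pi, Finset.prod_const, Finset.card_univ, Fintype.card_fin,
    prob_compl_eq_one_sub (hV.inter (sec_meas hA false)), ENNReal.ofReal_pow (by linarith),
    ENNReal.ofReal_sub _ ENNReal.toReal_nonneg, ENNReal.ofReal_one,
    ENNReal.ofReal_toReal (measure_ne_top _ _)]

theorem ext_void {a b : Measure Conf} [IsFiniteMeasure a]
    (h : ∀ A : Set Pt, MeasurableSet A → Bdd A → a (vd A) = b (vd A)) : a = b := by
  refine ext_of_generate_finite voids rfl isPiSystem_voids ?_ ?_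
  · rintro _ ⟨A, hA, hb, rfl⟩
    exact h A hA hb
  · have := h ∅ MeasurableSet.empty ⟨0, empty_subset _⟩
    rwa [show vd ∅ = univ from eq_univ_of_forall fun T => inter_empty _] at this

/-- **Comparison.** In a window which does not carry all the mass, `n` independent points are
dominated by a multiple of the Poisson process with the same intensity. -/
theorem transfer (hV : MeasurableSet V) {μ : Measure ℂ} [IsProbabilityMeasure μ] {c : ℝ≥0}
    (hμ : ∀ A ⊆ V, MeasurableSet A → μ A = c * volume A) (h0 : μ V ≠ 0) (h1 : μ V < 1)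
    {n : ℕ} (hn : 1 ≤ n) {Ω : Type*} [MeasurableSpace Ω] {P : Measure Ω} [IsProbabilityMeasure P]
    {S : Ω → Set Pt} (hS : IsColouredPoisson P S (n * c)) {E : Set Conf}
    (hE : MeasurableSet E) :
    (Measure.pi fun _ : Fin n => μ) {y | E (win V (range y))} ≤
      ENNReal.ofReal (6 / √(1 - (μ V).toReal)) * P {ω | E (win V (pts (S ω)))} := by
  set q : ℝ := (μ V).toReal with hq
  have q0 : 0 < q := ENNReal.toReal_pos h0 (measure_ne_top _ _)
  have q1 : q < 1 := by
    have := (ENNReal.toReal_lt_toReal (measure_ne_top _ _) ENNReal.one_ne_top).2 h1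
    simpa using this
  have : IsProbabilityMeasure μ[|V] := cond_isProbabilityMeasure h0
  have hc : ∀ A : Set Pt, (μ[|V] (V ∩ sec A false)).toReal = (μ (V ∩ sec A false)).toReal / q := by
    intro A
    rw [cond_apply hV, ← inter_assoc, inter_self, ENNReal.toReal_mul, ENNReal.toReal_inv,
      inv_mul_eq_div]
  have hle : ∀ A : Set Pt, 0 ≤ 1 - (μ (V ∩ sec A false)).toReal / q := fun A => by
    rw [← hc]
    exact sub_nonneg.2 measureReal_le_one
  have mS : @Measurable _ _ _ voidSigma fun ω => win V (pts (S ω)) :=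
    @Measurable.comp _ _ _ _ voidSigma voidSigma _ _ (meas_pts hV) hS.measurable_self
  have fin : IsFiniteMeasure (law V μ n) := @Measure.isFiniteMeasure_map _ _ voidSigma _ _ _ _
  have e1 : law V μ n = ∑ k ∈ Finset.range (n + 1),
      ENNReal.ofReal (n.choose k * q ^ k * (1 - q) ^ (n - k)) • law V μ[|V] k := by
    refine ext_void fun A hA hb => ?_
    rw [law_void hV μ n hA hb, Measure.finsetSum_apply]
    simp only [Measure.smul_apply, smul_eq_mul, law_void hV _ _ hA hb, hc]
    have p : ∀ k : ℕ, 0 ≤ (n.choose k : ℝ) * q ^ k * (1 - q) ^ (n - k) := fun k =>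
      mul_nonneg (by positivity) (pow_nonneg (by linarith) _)
    simp only [← ENNReal.ofReal_mul (p _)]
    rw [← ENNReal.ofReal_sum_of_nonneg fun k _ => mul_nonneg (p k) (pow_nonneg (hle A) k)]
    congr 1
    have e : 1 - (μ (V ∩ sec A false)).toReal =
        q * (1 - (μ (V ∩ sec A false)).toReal / q) + (1 - q) := by field_simp; ring
    conv_lhs => rw [e, add_pow]
    refine Finset.sum_congr rfl fun k _ => ?_
    rw [mul_pow]
    ring
  set L : Measure Conf := @Measure.map _ _ _ voidSigma (fun ω => win V (pts (S ω))) P with hL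
  have fin' : IsFiniteMeasure L := @Measure.isFiniteMeasure_map _ _ voidSigma _ _ _ _
  have Lap : ∀ {E : Set Conf}, MeasurableSet E →
      L E = P {ω | E (win V (pts (S ω)))} := fun hE =>
    @Measure.map_apply _ _ _ voidSigma _ _ mS _ hE
  have e2 : L = Measure.sum fun k : ℕ =>
      ENNReal.ofReal (Real.exp (-(n * q)) * (n * q) ^ k / k !) • law V μ[|V] k := by
    refine ext_void fun A hA hb => ?_
    have m : MeasurableSet (vd A) := measurableSet_voidEvent hA hb
    have mB := hV.inter (sec_meas hA false)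
    rw [Lap m, Measure.sum_apply _ m]
    change P {ω | win V (pts (S ω)) ∩ A = ∅} = _
    simp only [Measure.smul_apply, smul_eq_mul, law_void hV _ _ hA hb, hc, win_pts]
    have p : ∀ k : ℕ, 0 ≤ Real.exp (-(n * q)) * (n * q) ^ k / k ! := fun k => by positivity
    set a := (μ (V ∩ sec A false)).toReal with ha
    have hs : HasSum (fun k : ℕ => Real.exp (-(n * q)) * (n * q) ^ k / k ! * (1 - a / q) ^ k)
        (Real.exp (-(n * a))) := by
      have h := (NormedSpace.expSeries_div_hasSum_exp (n * q * (1 - a / q))).mul_left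
        (Real.exp (-(n * q)))
      rw [← Real.exp_eq_exp_ℝ, ← Real.exp_add,
        show -(n * q) + n * q * (1 - a / q) = -(n * a) by field_simp; ring] at h
      have e : (fun k : ℕ => Real.exp (-(n * q)) * (n * q) ^ k / k ! * (1 - a / q) ^ k) =
          fun k : ℕ => Real.exp (-(n * q)) * ((n * q * (1 - a / q)) ^ k / k !) := by
        funext k
        rw [mul_pow (n * q)]
        ring
      rw [e]
      exact h
    simp only [← ENNReal.ofReal_mul (p _)]
    rw [← ENNReal.ofReal_tsum_of_nonneg (fun k => mul_nonneg (p k) (pow_nonneg (hle A) k))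
      hs.summable, hs.tsum_eq, void_prob' hS (mB.prod .univ) (bdd_sec hb),
      inten_eq (mB.prod .univ)]
    have s : ∀ b, sec ((V ∩ sec A false) ×ˢ univ) b = V ∩ sec A false := fun b => by
      ext z
      simp [sec]
    rw [s, s, ← two_mul, ENNReal.mul_div_right_comm, ENNReal.div_self two_ne_zero ENNReal.ofNat_ne_top,
      one_mul, ENNReal.coe_mul, mul_assoc, ← hμ _ inter_subset_left mB, ENNReal.toReal_mul]
    simp [ha]
  rw [← law_apply hV μ n hE, ← Lap hE, e1, e2, Measure.finsetSum_apply, Measure.sum_apply _ hE,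
    ← ENNReal.tsum_mul_left]
  refine le_trans (Finset.sum_le_sum fun k hk => ?_) (ENNReal.sum_le_tsum (Finset.range (n + 1)))
  simp only [Measure.smul_apply, smul_eq_mul]
  rw [← mul_assoc, ← ENNReal.ofReal_mul (by positivity)]
  exact mul_le_mul_left (ENNReal.ofReal_le_ofReal
    (ratio q0 q1 hn (Nat.lt_succ_iff.1 (Finset.mem_range.1 hk)))) _

end Vale.Agent.N148
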