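import Vale.Agent.P148M96.St
import Vale.Agent.P148M96.Ccw

/-!
# P148: nearby quads, and the crossing probability of a finite set of points
-/

open Set MeasureTheory

namespace Vale.Agent.N148

open Vale.Agent.P148M96 (vor IsPoisson IsColouring)

/-- The model of the problem: for every `ε > 0`, `η ε` is a Poisson process of intensity `ε ^ (-2)`
and `col ε` colours its cells by independent fair coins, independently of the points. -/
def Model {Ω : ℝ → Type*} [∀ ε, MeasurableSpace (Ω ε)] (P : ∀ ε, Measure (Ω ε))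
    (η : ∀ ε, Ω ε → Set ℂ) (col : ∀ ε, Ω ε → ℂ → Bool) : Prop :=
  ∀ ε > 0, IsPoisson (P ε) (η ε) (Real.toNNReal (ε ^ (-2 : ℤ))) ∧
    ∃ X, IsColouring (P ε) (η ε) (col ε) X

/-- The boundary parametrisations of the quads `Q'` and `Q` are uniformly `δ`-close. -/
def Close (δ : ℝ) (Q' Q : P148.JQuad) : Prop := ∀ t, dist (Q'.γ t) (Q.γ t) < δ

/-- The proportion, among all subsets `W` of the finite set `Y`, of those for which the union of the
Voronoi cells (for `Y`) of the points of `W` crosses `Q` from `ab` to `cd`: the crossing probability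
when the cells of `Y` are coloured by independent fair coins (`W` is the set of black points). -/
noncomputable def frac (Q : P148.JQuad) (Y : Set ℂ) : ℝ :=
  ({W | W ⊆ Y ∧ Q.Cross 0 2 (⋃ v ∈ W, vor Y v)}.ncard : ℝ) / 2 ^ Y.ncard

/-- `R` contains a path from the arc `ab` to the arc `cd` which stays in the open domain `D` except
at its two end points. -/
def PathCross (Q : P148.JQuad) (R : Set ℂ) : Prop :=
  ∃ p : ℝ → ℂ, ContinuousOn p (Icc 0 1) ∧ p 0 ∈ Q.arc 0 ∧ p 1 ∈ Q.arc 2 ∧
    (∀ t ∈ Icc (0 : ℝ) 1, p t ∈ R) ∧ ∀ t ∈ Ioo (0 : ℝ) 1, p t ∈ Q.D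

end Vale.Agent.N148
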