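import Vale.Agent.N148.Stab
import Vale.Agent.N148.Bino

/-!
# P148: Cardy's formula for independent points
-/

open MeasureTheory Set Metric Topology Filter ProbabilityTheory
open scoped ENNReal NNReal

namespace Vale.Agent.N148

open _root_.P148
open _root_.P148.H729 (Conf avg recolSum flipOn pixSum measurableSet_voidEvent eventually_avg
  measurable_flipOn bdd_flipOn measurableSet_pixReg measurableSet_finite)
open Vale.Agent.P148.R2
open Vale.Agent.P148.R2.F (whp eventually_whp whp_net)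
open Vale.Agent.P148.R2.H847 (qpr qpr_mono qpr_congr qpr_restrict)
open Vale.Agent.P148.R2.H990
open Vale.Agent.P148M96 (ccw_of)

theorem bdd_prod {B : Set ℂ} (hb : Bornology.IsBounded B) (s : Set Bool) : Bdd (B ×ˢ s) := by
  obtain ⟨r, hr⟩ := hb.subset_ball 0
  exact ⟨r, prod_mono hr (subset_univ _)⟩

theorem measurable_avg' {B : Set ℂ} (hB : MeasurableSet B) (hb : Bornology.IsBounded B)
    {F : Conf → ℝ≥0∞} (hF : Measurable F) : Measurable fun T : Conf => avg B F T := by
  have hfin : MeasurableSet (show Set Conf from {T : Set Pt | (T ∩ B ×ˢ univ).Finite}) :=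
    measurableSet_finite (hB.prod .univ) (bdd_prod hb _)
  refine measurable_of_tendsto_metrizable
    (f := fun k => (show Set Conf from {T : Set Pt | (T ∩ B ×ˢ univ).Finite}).indicator
      fun T => (2 ^ (H729.win k).card)⁻¹ * pixSum k B F T) (fun k => Measurable.indicator ?_ hfin) ?_
  · refine Measurable.const_mul ?_ _
    exact Finset.measurable_sum _ fun W _ => hF.comp
      (measurable_img (measurable_flipOn (measurableSet_pixReg k hB W)) (bdd_flipOn _))
  · rw [tendsto_pi_nhds]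
    intro T
    change Set Pt at T
    have e : (T ∩ B ×ˢ univ).Finite ↔ (pts T ∩ B).Finite := by
      constructor
      · refine fun h => (h.image Prod.fst).subset ?_
        rintro _ ⟨⟨q, hq, rfl⟩, hv⟩
        exact ⟨q, ⟨hq, hv, mem_univ _⟩, rfl⟩
      · exact fun h => (h.prod (finite_univ (α := Bool))).subset
          fun q k => ⟨⟨⟨q, k.1, rfl⟩, k.2.1⟩, mem_univ _⟩
    by_cases h : (T ∩ B ×ˢ univ).Finite
    · refine tendsto_const_nhds.congr' ((eventually_avg B F T (e.1 h)).mono fun k hk => ?_)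
      exact hk.symm.trans (indicator_of_mem
        (s := (show Set Conf from {T : Set Pt | (T ∩ B ×ˢ univ).Finite})) h
        fun T => (2 ^ (H729.win k).card)⁻¹ * pixSum k B F T).symm
    · have z : avg B F T = 0 := by
        unfold avg recolSum
        rw [dif_neg fun k => h (e.2 k), mul_zero]
      rw [z]
      exact tendsto_const_nhds.congr fun k => (indicator_of_notMem
        (s := (show Set Conf from {T : Set Pt | (T ∩ B ×ˢ univ).Finite})) h _).symm

/-- The crossing event for configurations in the window `V`. -/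
def CB (X : Quad) (V : Set ℂ) : Set Conf :=
  ((vd (V ×ˢ {true}))ᶜ ∩ (show Set Conf from crossSet X 0 2)) ∪ vd (V ×ˢ {false})

theorem meas_CB (X : Quad) {V : Set ℂ} (hV : MeasurableSet V) (hb : Bornology.IsBounded V) :
    MeasurableSet (CB X V) := by
  have a : ∀ b : Bool, MeasurableSet (vd (V ×ˢ {b})) := fun b =>
    measurableSet_voidEvent (hV.prod (.singleton b)) (bdd_prod hb _)
  have hM : MeasCrossStmt.{0} := measCross
  exact ((a true).compl.inter (measurable_crossSet hM X 0 2)).union (a false)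

theorem cross_univ (X : Quad) : X.Cross 0 2 univ := by
  have hc : Convex ℝ sq := by
    have : sq = Icc (-1 : ℝ) 1 ×ℂ Icc (-1 : ℝ) 1 := by
      ext z
      simp only [P148.sq, mem_ofPred_eq, Complex.mem_reProdIm, mem_Icc, abs_le]
    rw [this]
    exact ((convex_Icc _ _).linear_preimage Complex.reLm).inter
      ((convex_Icc _ _).linear_preimage Complex.imLm)
  have m0 : (⟨0, -1⟩ : ℂ) ∈ side 0 := ⟨by simp, rfl⟩
  have m2 : (⟨0, 1⟩ : ℂ) ∈ side 2 := ⟨by simp, rfl⟩
  exact (X.cross_iff 0 2 univ).2 ⟨sq, by simp, hc.isConnected ⟨_, side_subset_sq 0 m0⟩,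
    ⟨_, side_subset_sq 0 m0, m0⟩, _, side_subset_sq 2 m2, m2⟩

theorem mem_CB (X : Quad) {V N W : Set ℂ} (hN : N.Finite) (hne : N.Nonempty) (hV : N ⊆ V)
    (hW : W ⊆ N) : CB X V (flipOn W '' (N ×ˢ {false})) ↔ X.Cross 0 2 (⋃ v ∈ W, vcell N v) := by
  set T : Set Pt := flipOn W '' (N ×ˢ {false}) with hT
  have ht : ∀ z, (z, true) ∈ T ↔ z ∈ W := fun z => by
    constructor
    · rintro ⟨⟨w, b⟩, ⟨-, hb⟩, e⟩
      obtain rfl : b = false := hb
      by_contra k
      simp only [flipOn, Prod.mk.injEq] at e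
      obtain ⟨rfl, e⟩ := e
      simp [k] at e
    · exact fun k => ⟨(z, false), ⟨hW k, rfl⟩, by simp [flipOn, k]⟩
  have hf : ∀ z, (z, false) ∈ T ↔ z ∈ N \ W := fun z => by
    constructor
    · rintro ⟨⟨w, b⟩, ⟨hw, hb⟩, e⟩
      obtain rfl : b = false := hb
      simp only [flipOn, Prod.mk.injEq] at e
      obtain ⟨rfl, e⟩ := e
      exact ⟨hw, fun k => by simp [k] at e⟩
    · exact fun k => ⟨(z, false), ⟨k.1, rfl⟩, by simp [flipOn, k.2]⟩
  have vt : T ∩ V ×ˢ {true} = ∅ ↔ ¬ W.Nonempty := by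
    rw [eq_empty_iff_forall_notMem]
    refine ⟨fun h ⟨z, k⟩ => h (z, true) ⟨(ht z).2 k, hV (hW k), rfl⟩, fun h ⟨z, b⟩ k => ?_⟩
    obtain rfl : b = true := k.2.2
    exact h ⟨z, (ht z).1 k.1⟩
  have vf : T ∩ V ×ˢ {false} = ∅ ↔ ¬ (N \ W).Nonempty := by
    rw [eq_empty_iff_forall_notMem]
    refine ⟨fun h ⟨z, k⟩ => h (z, false) ⟨(hf z).2 k, hV k.1, rfl⟩, fun h ⟨z, b⟩ k => ?_⟩
    obtain rfl : b = false := k.2.2
    exact h ⟨z, (hf z).1 k.1⟩
  change (¬ T ∩ V ×ˢ {true} = ∅ ∧ X.Cross 0 2 {z | gap T z ≤ 0}) ∨ T ∩ V ×ˢ {false} = ∅ ↔ _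
  rw [vt, vf, not_not]
  have ct : col T true = W := Set.ext ht
  have cf : col T false = N \ W := Set.ext hf
  by_cases h1 : (N \ W).Nonempty
  · by_cases h2 : W.Nonempty
    · have e : {z | gap T z ≤ 0} = ⋃ v ∈ W, vcell N v := by
        ext z
        rw [mem_ofPred_eq, gap, ct, cf, sub_nonpos, mem_iUnion₂]
        constructor
        · intro h
          obtain ⟨v, hv, e⟩ := (hN.subset hW).isCompact.exists_infDist_eq_dist h2 z
          refine ⟨v, hv, fun w hw => ?_⟩
          rw [← e]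
          by_cases k : w ∈ W
          · exact infDist_le_dist_of_mem k
          · exact h.trans (infDist_le_dist_of_mem ⟨hw, k⟩)
        · rintro ⟨v, hv, h⟩
          exact (le_infDist h1).2 fun w hw => (infDist_le_dist_of_mem hv).trans (h w hw.1)
      rw [e]
      simp only [h1, h2, true_and, not_true, or_false]
    · refine iff_of_false (by simp [h1, h2]) ?_
      rintro ⟨K, hK, ⟨⟨z, hz⟩, -⟩, -⟩
      obtain ⟨v, hv, -⟩ := mem_iUnion₂.1 (hK hz).1
      exact h2 ⟨v, hv⟩
  · refine iff_of_true (Or.inr h1) (cross_mono (fun z _ => ?_) (cross_univ X))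
    obtain ⟨v, hv, h⟩ := Set.exists_min_image N (fun w => dist z w) hN hne
    exact mem_biUnion (by_contra fun k => h1 ⟨v, hv, k⟩) h

/-- The crossing probability of the finite set `N`. -/
noncomputable def gq (X : Quad) (N : Set ℂ) : ℝ := qpr N fun W => X.Cross 0 2 (⋃ v ∈ W, vcell N v)

theorem avg_win (X : Quad) {V Y : Set ℂ} (hN : (Y ∩ V).Finite) (hne : (Y ∩ V).Nonempty) :
    (avg V ((CB X V).indicator 1) (win V Y)).toReal = gq X (Y ∩ V) := by
  classical
  have e : pts (win V Y) ∩ V = Y ∩ V := by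
    ext z
    exact ⟨fun ⟨⟨q, hq, e⟩, _⟩ => e ▸ hq.1, fun k => ⟨⟨(z, false), ⟨k, rfl⟩, rfl⟩, k.2⟩⟩
  have hN' : (pts (win V Y) ∩ V).Finite := e ▸ hN
  unfold avg recolSum gq qpr
  rw [dif_pos hN']
  have h1 : ∑ W ∈ hN'.toFinset.powerset, (CB X V).indicator (1 : Conf → ℝ≥0∞)
      (flipOn (W : Set ℂ) '' win V Y) = ((hN'.toFinset.powerset.filter fun W : Finset ℂ =>
        X.Cross 0 2 (⋃ v ∈ (W : Set ℂ), vcell (Y ∩ V) v)).card : ℝ≥0∞) := by
    rw [Finset.card_filter]
    push_cast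
    refine Finset.sum_congr rfl fun W hW => ?_
    have hW' : (W : Set ℂ) ⊆ Y ∩ V := by
      rw [← e, ← hN'.coe_toFinset]
      exact Finset.coe_subset.2 (Finset.mem_powerset.1 hW)
    have := mem_CB X hN hne inter_subset_right hW'
    split_ifs with k
    · exact indicator_of_mem (s := CB X V) (this.2 k) _
    · exact indicator_of_notMem (s := CB X V) (fun j => k (this.1 j)) _
  have h2 : {W | W ⊆ Y ∩ V ∧ X.Cross 0 2 (⋃ v ∈ W, vcell (Y ∩ V) v)} =
      (fun W : Finset ℂ => (W : Set ℂ)) '' (hN'.toFinset.powerset.filter fun W : Finset ℂ =>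
        X.Cross 0 2 (⋃ v ∈ (W : Set ℂ), vcell (Y ∩ V) v) : Finset (Finset ℂ)) := by
    ext W
    simp only [mem_ofPred_eq, mem_image, Finset.coe_filter, Finset.mem_powerset,
      ← Finset.coe_subset, Finite.coe_toFinset, e]
    constructor
    · rintro ⟨a, b⟩
      lift W to Finset ℂ using hN.subset a
      exact ⟨W, ⟨a, b⟩, rfl⟩
    · rintro ⟨W, h, rfl⟩
      exact h
  refine (congrArg (fun t => ((2 ^ (pts (win V Y) ∩ V).ncard)⁻¹ * t).toReal) h1).trans ?_
  rw [h2, Set.ncard_image_of_injective _ Finset.coe_injective, Set.ncard_coe_finset,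
    congrArg Set.ncard e]
  simp [div_eq_inv_mul]

/-- Locality. -/
theorem qpr_local (X : Quad) {K Y N : Set ℂ} {θ : ℝ} (hK : closure X.D ⊆ K)
    (net : ∀ z ∈ K, ∃ y ∈ Y, dist z y < θ) (hN : N.Finite) (h1 : Y ∩ thickening θ K ⊆ N)
    (h2 : N ⊆ Y) :
    qpr N (fun W => X.Cross 0 2 (⋃ v ∈ W, vcell Y v)) = gq X (Y ∩ thickening θ K) := by
  rw [gq, ← qpr_restrict hN h1]
  refine qpr_congr fun W hW => ?_
  have inV : ∀ z ∈ K, ∀ v, dist z v < θ → v ∈ thickening θ K := fun z hz v h =>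
    mem_thickening_iff.2 ⟨z, hz, by rwa [dist_comm]⟩
  constructor <;> rintro ⟨L, hL, h⟩ <;> refine ⟨L, fun z hz => ⟨?_, (hL hz).2⟩, h⟩ <;>
    obtain ⟨v, hv, k⟩ := mem_iUnion₂.1 (hL hz).1 <;>
    obtain ⟨y, hy, hzy⟩ := net z (hK (hL hz).2)
  · exact mem_biUnion (x := v) ⟨hv, h2 (hW hv), inV z (hK (hL hz).2) v ((k y hy).trans_lt hzy)⟩
      fun w hw => k w hw.1
  · refine mem_biUnion hv.1 fun w hw => ?_
    by_cases j : dist z w < θ
    · exact k w ⟨hw, inV z (hK (hL hz).2) w j⟩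
    · exact (k y ⟨hy, inV z (hK (hL hz).2) y hzy⟩).trans (hzy.le.trans (not_lt.1 j))

theorem box_in {H : ℂ ≃ₜ ℂ} {U : Set ℂ} (hU : IsOpen U) (h : H '' sq ⊆ U) :
    ∀ᶠ n in atTop, H '' {z | |z.re| ≤ bn n ∧ |z.im| ≤ bn n} ⊆ U := by
  obtain ⟨δ, hδ, hr⟩ := exists_room isCompact_sq (hU.preimage H.continuous) (image_subset_iff.1 h)
  have h3 : ∀ᶠ n in atTop, 2 * sn n < δ := by
    have : Tendsto (fun n => 2 * sn n) atTop (𝓝 (2 * 0)) := tendsto_sn.const_mul 2
    rw [mul_zero] at this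
    exact this.eventually_lt_const hδ
  filter_upwards [h3] with n hn
  rintro _ ⟨z, hz, rfl⟩
  have b0 := bn_pos n
  have key : ∀ x : ℝ, |x| ≤ bn n → |x - (bn n)⁻¹ * x| ≤ sn n := fun x hx => by
    have e : x - (bn n)⁻¹ * x = (bn n - 1) * ((bn n)⁻¹ * x) := by field_simp
    rw [e, abs_mul, abs_of_pos (sub_pos.2 (lt_bn n))]
    have := (abs_inv_mul_le b0).2 hx
    nlinarith [bn_le n, lt_bn n, abs_nonneg ((bn n)⁻¹ * x)]
  exact hr ⟨(bn n)⁻¹ * z.re, (bn n)⁻¹ * z.im⟩
    ⟨(abs_inv_mul_le b0).2 hz.1, (abs_inv_mul_le b0).2 hz.2⟩ z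
    ((dist_le_coord _ _ (key _ hz.1) (key _ hz.2)).trans_lt hn)

theorem tendsto_mesh {c : ℝ≥0} (hc : 0 < c) :
    Tendsto (fun n : ℕ => (√((n : ℝ) * c))⁻¹) atTop (𝓝[>] 0) :=
  tendsto_inv_atTop_nhdsGT_zero.comp (Real.tendsto_sqrt_atTop.comp
    (tendsto_natCast_atTop_atTop.atTop_mul_const (by exact_mod_cast hc)))

theorem mesh_eq (c : ℝ≥0) (n : ℕ) :
    Real.toNNReal (((√((n : ℝ) * c))⁻¹) ^ (-2 : ℤ)) = n * c := by
  rw [inv_zpow', neg_neg, zpow_two, Real.mul_self_sqrt (by positivity)]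
  exact_mod_cast Real.toNNReal_coe (r := n * c)

theorem frac_eq (Q : JQuad) (Y : Set ℂ) :
    frac Q Y = qpr Y fun W => Q.Cross 0 2 (⋃ v ∈ W, vcell Y v) := by
  simp only [frac, qpr, vor_eq]

/-- **Independent points.** -/
theorem iid {Q : JQuad} {φ : ℂ → ℂ} {x : ℝ} (hφ : Q.IsUniformizer φ x) (μ : Measure ℂ)
    [IsProbabilityMeasure μ] {U : Set ℂ} {c : ℝ≥0} (hU : IsOpen U) (hD : closure Q.D ⊆ U)
    (hc : 0 < c) (hμ : μ.restrict U = c • volume.restrict U) {κ : ℝ} (hκ : 0 < κ) :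
    ∃ δ > 0, Tendsto (fun n : ℕ => (Measure.pi fun _ : Fin n => μ)
      {y | ∃ Q', Close δ Q' Q ∧ κ ≤ |frac Q' (range y) - cardy x|}) atTop (𝓝 0) := by
  obtain ⟨T, e1, e2, e3⟩ := H771.exists_quad Q
  obtain ⟨R₀, hR₀⟩ := whp_two.{0} ((H771.unif_iff e1 e2 φ x).1 hφ)
  obtain ⟨M, hM⟩ := ((isCompact_box 2 2).image T.H.continuous).isBounded.subset_closedBall (0 : ℂ)
  set R := max R₀ (M + 1) with hR
  obtain ⟨n, hn, hb⟩ := ((hR₀ R (le_max_left _ _) _ (half_pos hκ)).and
    (box_in hU (by rw [← T.closure_D, e1]; exact hD))).exists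
  obtain ⟨δ, hδ, hs⟩ := sand_cells (ccw_of hφ) e1 e3 n
  refine ⟨δ, hδ, ?_⟩
  set K := T.H '' {z | |z.re| ≤ bn n ∧ |z.im| ≤ bn n} with hK
  have Kc : IsCompact K := (isCompact_box _ _).image T.H.continuous
  have ab := ((an_lt n).trans (lt_bn n)).le
  have K1 : closure (Q1 T n).D ⊆ K := fun z hz => by
    have := (mem_sc_cl T _ _ z).1 hz
    exact mem_img.2 ⟨this.1.trans ab, this.2⟩
  have K2 : closure (Q2 T n).D ⊆ K := fun z hz => by
    have := (mem_sc_cl T _ _ z).1 hz
    exact mem_img.2 ⟨this.1, this.2.trans ab⟩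
  have K0 : T.H 0 ∈ K := ⟨0, by simpa using (bn_pos n).le, rfl⟩
  have KM : K ⊆ closedBall 0 M := subset_trans (image_mono fun z hz => And.intro
    (hz.1.trans (by linarith [bn_le n, sn_le n])) (hz.2.trans (by linarith [bn_le n, sn_le n]))) hM
  obtain ⟨θ', hθ', hθU⟩ := Kc.exists_cthickening_subset_open hU hb
  set θ := min θ' 1 with hθ
  have θ0 : 0 < θ := lt_min hθ' one_pos
  have cU : cthickening θ K ⊆ U := (cthickening_mono (min_le_left _ _) K).trans hθU
  set V := thickening θ K with hV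
  have VU : V ⊆ U := (thickening_subset_cthickening θ K).trans cU
  have Vm : MeasurableSet V := isOpen_thickening.measurableSet
  have Vb : Bornology.IsBounded V := Kc.isBounded.thickening
  have VR : V ⊆ ball 0 R := fun z hz => by
    obtain ⟨w, hw, h⟩ := mem_thickening_iff.1 hz
    have h1 := mem_closedBall.1 (KM hw)
    have h2 := dist_triangle z w 0
    have h3 : θ ≤ 1 := min_le_right _ _
    have h4 : M + 1 ≤ R := le_max_right _ _
    rw [mem_ball]
    linarith
  have mu : ∀ A ⊆ U, MeasurableSet A → μ A = c * volume A := fun A hA mA => by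
    have := congrArg (fun ν : Measure ℂ => ν A) hμ
    simp only [Measure.smul_apply, Measure.restrict_apply mA, inter_eq_self_of_subset_left hA]
      at this
    exact this
  have pos : ∀ A ⊆ U, IsOpen A → A.Nonempty → μ A ≠ 0 := fun A hA oA nA => by
    rw [mu A hA oA.measurableSet]
    exact mul_ne_zero (by exact_mod_cast hc.ne') (oA.measure_ne_zero volume nA)
  have V0 := pos V VU isOpen_thickening ⟨_, self_subset_thickening θ0 K K0⟩
  have V1 : μ V < 1 := by
    have ne : (U \ cthickening θ K).Nonempty := by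
      by_contra k
      have e : U = cthickening θ K :=
        (Set.sdiff_eq_empty.1 (not_nonempty_iff_eq_empty.1 k)).antisymm cU
      rcases isClopen_iff.1 ⟨e ▸ isClosed_cthickening, hU⟩ with j | j
      · exact (j ▸ hb K0 : T.H 0 ∈ (∅ : Set ℂ))
      · exact NormedSpace.unbounded_univ ℝ ℂ (j ▸ e ▸ Kc.isBounded.cthickening)
    have p := pos _ sdiff_subset (hU.sdiff isClosed_cthickening) ne
    refine lt_of_le_of_ne prob_le_one fun k => p (measure_mono_null (t := Vᶜ)
      (fun z hz j => hz.2 (thickening_subset_cthickening θ K j)) ?_)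
    exact (prob_compl_eq_zero_iff Vm).2 k
  obtain ⟨Z, ZK, Zf, Zc⟩ := finite_cover_balls_of_compact Kc (half_pos θ0)
  set G : Quad → Conf → ℝ := fun X S => (avg V ((CB X V).indicator 1) S).toReal with hG
  have mG : ∀ X, Measurable (G X) := fun X =>
    (measurable_avg' Vm Vb (measurable_one.indicator (meas_CB X Vm Vb))).ennreal_toReal
  set E : Set Conf := ((⋂ z ∈ Z, (vd (ball z (θ / 2) ×ˢ univ))ᶜ) ∩
    ({S | cardy x - κ / 2 ≤ G (Q1 T n) S} ∩ {S | G (Q2 T n) S ≤ cardy x + κ / 2}))ᶜ with hE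
  have mE : MeasurableSet E := by
    refine ((MeasurableSet.biInter Zf.countable fun z _ => MeasurableSet.compl ?_).inter
      ((measurableSet_le measurable_const (mG _)).inter
        (measurableSet_le (mG _) measurable_const))).compl
    exact measurableSet_voidEvent (measurableSet_ball.prod .univ) (bdd_prod isBounded_ball _)
  have iE : ∀ Y : Set ℂ, ¬ E (win V Y) ↔ (∀ z ∈ Z, ∃ y ∈ Y ∩ V, dist y z < θ / 2) ∧
      cardy x - κ / 2 ≤ G (Q1 T n) (win V Y) ∧ G (Q2 T n) (win V Y) ≤ cardy x + κ / 2 := by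
    intro Y
    refine not_not.trans (and_congr_left' (mem_iInter₂.trans (forall₂_congr fun z _ => ?_)))
    refine (nonempty_iff_ne_empty (s := win V Y ∩ ball z (θ / 2) ×ˢ univ)).symm.trans ?_
    exact ⟨fun ⟨q, a, b⟩ => ⟨q.1, a.1, b.1⟩, fun ⟨y, a, b⟩ => ⟨(y, false), ⟨a, rfl⟩, b, mem_univ _⟩⟩
  have net : ∀ Y : Set ℂ, (∀ z ∈ Z, ∃ y ∈ Y ∩ V, dist y z < θ / 2) →
      (∀ z ∈ K, ∃ y ∈ Y, dist z y < θ) ∧ (Y ∩ V).Nonempty := fun Y h => by
    refine ⟨fun z hz => ?_, ?_⟩
    · obtain ⟨w, hw, k⟩ := mem_iUnion₂.1 (Zc hz)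
      obtain ⟨y, hy, j⟩ := h w hw
      have := dist_triangle_right z y w
      rw [mem_ball] at k
      exact ⟨y, hy.1, by linarith⟩
    · obtain ⟨w, hw, -⟩ := mem_iUnion₂.1 (Zc K0)
      obtain ⟨y, hy, -⟩ := h w hw
      exact ⟨y, hy⟩
  have wE : ∀ᶠ m in whp.{0}, ¬ E (win V (pts m.2)) := by
    filter_upwards [hn, whp_net.{0} M (half_pos θ0), whp_finite.{0} R] with m h1 h2 h3
    have a : ∀ z ∈ Z, ∃ y ∈ pts m.2 ∩ V, dist y z < θ / 2 := fun z hz => by
      obtain ⟨y, hy, k⟩ := h2 z (KM (ZK hz))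
      rw [dist_comm] at k
      exact ⟨y, ⟨hy, mem_thickening_iff.2 ⟨z, ZK hz, by linarith⟩⟩, k⟩
    obtain ⟨b, c⟩ := net _ a
    have s := inter_subset_inter_right (pts m.2) VR
    have f := h3.subset s
    refine (iE _).2 ⟨a, ?_, ?_⟩
    · exact h1.1.trans ((qpr_local _ K1 b h3 s inter_subset_left).trans (avg_win _ f c).symm).le
    · exact ((avg_win _ f c).trans (qpr_local _ K2 b h3 s inter_subset_left).symm).le.trans h1.2
  obtain ⟨Ω, _, P, _, S, hS⟩ := H900.exists_family
  have t1 := ENNReal.Tendsto.const_mul (a := ENNReal.ofReal (6 / √(1 - (μ V).toReal)))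
    ((eventually_whp.1 wE Ω P S hS).comp (tendsto_mesh hc)) (Or.inr ENNReal.ofReal_ne_top)
  rw [mul_zero] at t1
  refine tendsto_of_tendsto_of_tendsto_of_le_of_le' tendsto_const_nhds t1
    (Eventually.of_forall fun _ => zero_le) ?_
  filter_upwards [eventually_ge_atTop 1, (tendsto_mesh hc).eventually self_mem_nhdsWithin]
    with k hk hε
  have hS' := hS _ hε
  rw [mesh_eq] at hS'
  refine le_trans (measure_mono ?_) ((transfer Vm (fun A a b => mu A (a.trans VU) b) V0 V1 hk hS'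
    mE).trans (by simp only [Function.comp, not_not, le_refl]))
  rintro y ⟨Q', hc', hy⟩
  by_contra j
  obtain ⟨a, b1, b2⟩ := (iE _).1 j
  obtain ⟨b, c⟩ := net _ a
  have f : (range y).Finite := finite_range y
  have f' := f.inter_of_left V
  have hs' := fun W (hW : W ⊆ range y) => hs Q' hc' (range y) W (fun r => f.inter_of_left _) hW
  have l1 := (b1.trans ((avg_win _ f' c).trans
    (qpr_local _ K1 b f inter_subset_left subset_rfl).symm).le).trans
    (qpr_mono f fun W hW k => ((hs' W hW).1 k).cross)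
  have l2 := (qpr_mono f fun W hW k => (hs' W hW).2 k).trans
    (((qpr_local _ K2 b f inter_subset_left subset_rfl).trans (avg_win _ f' c).symm).le.trans b2)
  rw [← frac_eq] at l1 l2
  have := abs_le.2 (⟨by linarith, by linarith⟩ :
    -(κ / 2) ≤ frac Q' (range y) - cardy x ∧ frac Q' (range y) - cardy x ≤ κ / 2)
  linarith

theorem measurable_frac (Q : JQuad) {n : ℕ} (hn : 1 ≤ n) :
    Measurable fun y : Fin n → ℂ => frac Q (range y) := by
  obtain ⟨T, e1, -, e3⟩ := H771.exists_quad Q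
  refine measurable_of_tendsto_metrizable (f := fun (r : ℕ) y =>
    (avg (ball 0 r) ((CB T (ball 0 r)).indicator 1) (win (ball 0 r) (range y))).toReal)
    (fun r => ((measurable_avg' measurableSet_ball isBounded_ball (measurable_one.indicator
      (meas_CB T measurableSet_ball isBounded_ball))).comp
        (meas_range measurableSet_ball n)).ennreal_toReal) (tendsto_pi_nhds.2 fun y => ?_)
  obtain ⟨M, hM⟩ := (finite_range y).isBounded.subset_ball (0 : ℂ)
  refine tendsto_const_nhds.congr' ?_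
  filter_upwards [tendsto_natCast_atTop_atTop.eventually_ge_atTop M] with r hr
  have e : range y ∩ ball 0 r = range y :=
    inter_eq_self_of_subset_left (hM.trans (ball_subset_ball hr))
  rw [avg_win T (by rw [e]; exact finite_range y) (by rw [e]; exact ⟨_, ⟨0, hn⟩, rfl⟩), e, frac_eq]
  simp only [gq, H771.cross_iff e1 e3]

/-- **Independent points, annealed.** -/
theorem iid_mean {Q : JQuad} {φ : ℂ → ℂ} {x : ℝ} (hφ : Q.IsUniformizer φ x) (μ : Measure ℂ)
    [IsProbabilityMeasure μ] {U : Set ℂ} {c : ℝ≥0} (hU : IsOpen U) (hD : closure Q.D ⊆ U)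
    (hc : 0 < c) (hμ : μ.restrict U = c • volume.restrict U) :
    Tendsto (fun n : ℕ => ∫ y, frac Q (range y) ∂(Measure.pi fun _ : Fin n => μ)) atTop
      (𝓝 (cardy x)) := by
  refine Metric.tendsto_nhds.2 fun κ hκ => ?_
  obtain ⟨δ, hδ, h⟩ := iid hφ μ hU hD hc hμ (half_pos hκ)
  set C := 1 + |cardy x| with hC
  have C0 : 0 < C := by positivity
  filter_upwards [(ENNReal.tendsto_nhds_zero.1 h) _ (ENNReal.ofReal_pos.2
    (show 0 < κ / 4 / C by positivity)), eventually_ge_atTop 1] with n h1 hn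
  set π := Measure.pi fun _ : Fin n => μ
  set A := {y : Fin n → ℂ | κ / 2 ≤ |frac Q (range y) - cardy x|} with hA
  have mf := measurable_frac Q hn
  have mA : MeasurableSet A := measurableSet_le measurable_const (mf.sub_const _).abs
  have pA : π.real A ≤ κ / 4 / C := ENNReal.toReal_le_of_le_ofReal (by positivity)
    (le_trans (measure_mono fun y hy => by exact ⟨Q, close_self hδ Q, hy⟩) h1)
  have bd : ∀ y : Fin n → ℂ, |frac Q (range y)| ≤ 1 := fun y => by
    rw [frac_eq, abs_of_nonneg (H847.qpr_nonneg _ _)]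
    exact H847.qpr_le_one (finite_range y) _
  have fi : Integrable (fun y => frac Q (range y)) π :=
    Integrable.of_bound mf.aestronglyMeasurable 1 (Eventually.of_forall bd)
  have ii : Integrable (A.indicator fun _ => C) π := (integrable_const _).indicator mA
  have key : ∀ y : Fin n → ℂ, ‖frac Q (range y) - cardy x‖ ≤ κ / 2 + A.indicator (fun _ => C) y := by
    intro y
    by_cases k : y ∈ A
    · rw [indicator_of_mem k]
      linarith [abs_sub (frac Q (range y)) (cardy x), bd y, Real.norm_eq_abs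
        (frac Q (range y) - cardy x)]
    · rw [indicator_of_notMem k, add_zero]
      exact (not_le.1 k).le
  have e := norm_integral_le_of_norm_le ((integrable_const (κ / 2)).add ii) (Eventually.of_forall key)
  rw [integral_sub fi (integrable_const _), integral_add' (integrable_const _) ii,
    integral_indicator_const _ mA] at e
  simp only [integral_const, probReal_univ, smul_eq_mul, one_mul] at e
  rw [le_div_iff₀ C0] at pA
  rw [dist_eq_norm]
  linarith

end Vale.Agent.N148
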