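import Vale.Agent.N148.Topo
import Vale.Agent.P148.R2.H566.Final

/-!
# P148: quenched bounds for the two quads of the sandwich
-/

open MeasureTheory Set Metric Topology Filter ProbabilityTheory
open scoped ENNReal NNReal

namespace Vale.Agent.N148

open _root_.P148
open _root_.P148.H729 (OneCol avg paint avg_eq_sum pts_paint mem_paint_of_mem measurable_void
  measurableSet_voidEvent lintegral_avg measurable_avg)
open Vale.Agent.P148.R2
open Vale.Agent.P148.R2.H592 (QDom)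
open Vale.Agent.P148.R2.H847 (qpr UArm qpr_mono qpr_compl qpr_le_one finite_subs)
open Vale.Agent.P148.R2.F (Dom qcross whp whp_of_ae)
open Vale.Agent.P148.R2.H990

universe u

/-- The smaller half side. -/
noncomputable def an (n : ℕ) : ℝ := (1 - sn n) / (1 - sn (n + 1))

/-- The larger half side. -/
noncomputable def bn (n : ℕ) : ℝ := (1 + sn n) / (1 + sn (n + 1))

theorem sn_lt (n : ℕ) : sn (n + 1) < sn n := by
  unfold sn
  push_cast
  exact one_div_lt_one_div_of_lt (by positivity) (by linarith)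

theorem sn_lt3 (n : ℕ) : sn n < 3 * sn (n + 1) := by
  unfold sn
  push_cast
  have : (0 : ℝ) ≤ n := n.cast_nonneg
  rw [mul_one_div, div_lt_div_iff₀ (by positivity) (by positivity)]
  linarith

theorem an_mul (n : ℕ) : an n * (1 - sn (n + 1)) = 1 - sn n := div_mul_cancel₀ _ (sn_ne1 _)

theorem bn_mul (n : ℕ) : bn n * (1 + sn (n + 1)) = 1 + sn n := div_mul_cancel₀ _ (sn_ne2 _)

theorem an_pos (n : ℕ) : 0 < an n :=
  div_pos (by linarith [sn_le n]) (by linarith [sn_le (n + 1)])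

theorem bn_pos (n : ℕ) : 0 < bn n :=
  div_pos (by linarith [sn_pos n]) (by linarith [sn_pos (n + 1)])

theorem an_lt (n : ℕ) : an n < 1 :=
  (div_lt_one (by linarith [sn_le (n + 1)])).2 (by linarith [sn_lt n])

theorem lt_bn (n : ℕ) : 1 < bn n :=
  (one_lt_div (by linarith [sn_pos (n + 1)])).2 (by linarith [sn_lt n])

theorem le_an (n : ℕ) : 1 - sn n ≤ an n := by
  nlinarith [an_mul n, an_pos n, sn_pos (n + 1)]

theorem bn_le (n : ℕ) : bn n ≤ 1 + sn n := by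
  nlinarith [bn_mul n, bn_pos n, sn_pos (n + 1)]

/-- The thinner and longer quad. -/
noncomputable def Q1 (Q : Quad) (n : ℕ) : Quad := sc Q (an n) (bn n) (an_pos n) (bn_pos n)

/-- The wider and shorter quad. -/
noncomputable def Q2 (Q : Quad) (n : ℕ) : Quad := sc Q (bn n) (an n) (bn_pos n) (an_pos n)

theorem QA_Q1 (Q : Quad) (n : ℕ) : QA (Q1 Q n) (n + 1) = QA Q n := by
  unfold QA
  congr 1
  ext z
  show Q.H ⟨an n * ((1 - sn (n + 1)) * z.re), bn n * ((1 + sn (n + 1)) * z.im)⟩ =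
    Q.H ⟨(1 - sn n) * z.re, (1 + sn n) * z.im⟩
  rw [← mul_assoc, ← mul_assoc, an_mul, bn_mul]

theorem QA_Q2 (Q : Quad) (n : ℕ) : QA' (Q2 Q n) (n + 1) = QA' Q n := by
  unfold QA'
  congr 1
  ext z
  show Q.H ⟨bn n * ((1 + sn (n + 1)) * z.re), an n * ((1 - sn (n + 1)) * z.im)⟩ =
    Q.H ⟨(1 + sn n) * z.re, (1 - sn n) * z.im⟩
  rw [← mul_assoc, ← mul_assoc, an_mul, bn_mul]

theorem rf_Q2 (Q : Quad) (n : ℕ) (z : ℂ) :
    (rf.trans (Q2 Q n).H) z = (rf.trans Q.H) ⟨an n * z.re, bn n * z.im⟩ := by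
  show Q.H ⟨bn n * -z.im, an n * -z.re⟩ = Q.H ⟨-(bn n * z.im), -(an n * z.re)⟩
  rw [mul_neg, mul_neg]

theorem exists_r0' (H : ℂ ≃ₜ ℂ) : ∃ r₀ > 0, ∀ n, ∀ z : ℂ, |z.re| ≤ 1 → 1 ≤ z.im → z.im ≤ 2 →
    H ⟨an n * z.re, bn n * z.im⟩ ∈ (closedBall (H (corner 1)) r₀)ᶜ := by
  set K : Set ℂ := {z | |z.re| ≤ 1 ∧ (1 ≤ z.im ∧ z.im ≤ 3)} with hK
  have hKc : IsCompact K := by
    refine (isCompact_box 1 3).of_isClosed_subset ?_ ?_
    · exact (isClosed_le (continuous_abs.comp Complex.continuous_re) continuous_const).inter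
        ((isClosed_le continuous_const Complex.continuous_im).inter
          (isClosed_le Complex.continuous_im continuous_const))
    · rintro z ⟨h1, h2, h3⟩
      exact ⟨h1, abs_le.2 ⟨by linarith, h3⟩⟩
  have hni : H (corner 1) ∉ H '' K := by
    rintro ⟨z, hz, he⟩
    rw [H.injective he] at hz
    have h1 : (1 : ℝ) ≤ -1 := hz.2.1
    norm_num at h1
  obtain ⟨δ, hδ, h⟩ := exists_room (isCompact_singleton (x := H (corner 1)))
    (hKc.image H.continuous).isClosed.isOpen_compl (singleton_subset_iff.2 hni)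
  refine ⟨δ / 2, by positivity, fun n z h1 h2 h3 hmem => ?_⟩
  rw [mem_closedBall] at hmem
  refine h (H (corner 1)) rfl _ (by linarith) ⟨⟨an n * z.re, bn n * z.im⟩, ⟨?_, ?_, ?_⟩, rfl⟩
  · show |an n * z.re| ≤ 1
    rw [abs_mul, abs_of_pos (an_pos n)]
    exact mul_le_one₀ (an_lt n).le (abs_nonneg _) h1
  · show 1 ≤ bn n * z.im
    nlinarith [lt_bn n]
  · show bn n * z.im ≤ 3
    nlinarith [bn_le n, sn_le n, bn_pos n]

theorem eventually_small' (H : ℂ ≃ₜ ℂ) {δ : ℝ} (hδ : 0 < δ) : ∀ᶠ n in atTop,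
    ∀ z ∈ ball (corner 1) (6 * sn (n + 1)),
      H ⟨an n * z.re, bn n * z.im⟩ ∈ ball (H (corner 1)) δ ∧
      H ⟨bn n * z.re, an n * z.im⟩ ∈ ball (H (corner 1)) δ := by
  have h1 : H ⁻¹' ball (H (corner 1)) δ ∈ 𝓝 (corner 1) :=
    H.continuous.continuousAt.preimage_mem_nhds (ball_mem_nhds _ hδ)
  obtain ⟨η, hη, h2⟩ := Metric.mem_nhds_iff.1 h1
  have h3 : ∀ᶠ n in atTop, 20 * sn n < η := by
    have : Tendsto (fun n => 20 * sn n) atTop (𝓝 (20 * 0)) := tendsto_sn.const_mul 20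
    rw [mul_zero] at this
    exact this.eventually_lt_const hη
  filter_upwards [h3] with n hn z hz
  rw [mem_ball, dist_eq_norm] at hz
  have a1 := abs_lt.1 ((Complex.abs_re_le_norm _).trans_lt hz)
  have a2 := abs_lt.1 ((Complex.abs_im_le_norm _).trans_lt hz)
  have b1 : (z - corner 1).re = z.re - 1 := rfl
  have b2 : (z - corner 1).im = z.im - -1 := rfl
  rw [b1] at a1
  rw [b2] at a2
  have c1 := sn_lt n
  have c2 := sn_pos (n + 1)
  have c3 := sn_le n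
  have key : ∀ c x y : ℝ, 1 - sn n ≤ c → c ≤ 1 + sn n → |y| = 1 → -(6 * sn (n + 1)) < x - y →
      x - y < 6 * sn (n + 1) → |c * x - y| ≤ 10 * sn n := by
    intro c x y e1 e2 e3 e4 e5
    have e6 : c * x - y = c * (x - y) + (c - 1) * y := by ring
    rw [e6]
    refine (abs_add_le _ _).trans ?_
    rw [abs_mul, abs_mul, e3, abs_of_pos (by linarith : 0 < c)]
    have e7 : |x - y| ≤ 6 * sn n := abs_le.2 ⟨by linarith, by linarith⟩
    have e8 : |c - 1| ≤ sn n := abs_le.2 ⟨by linarith, by linarith⟩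
    nlinarith [abs_nonneg (x - y)]
  have d1 := le_an n
  have d2 := bn_le n
  have d3 := an_lt n
  have d4 := lt_bn n
  constructor <;> refine h2 (mem_ball.2 ((dist_le_coord _ _ (c := 10 * sn n) ?_ ?_).trans_lt
    (by linarith)))
  · exact key _ _ 1 d1 (by linarith) abs_one a1.1 a1.2
  · exact key _ _ (-1) (by linarith) d2 (by simp) a2.1 a2.2
  · exact key _ _ 1 (by linarith) d2 abs_one a1.1 a1.2
  · exact key _ _ (-1) d1 (by linarith) (by simp) a2.1 a2.2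

theorem wn_in (n : ℕ) {c : ℝ} (h0 : 0 < c) (h : c ≤ bn n) : |c * (1 - 2 * sn (n + 1))| < 1 := by
  have c1 := sn_lt3 n
  have c2 := sn_pos (n + 1)
  have c3 := sn_le (n + 1)
  have c4 := bn_mul n
  have c5 := lt_bn n
  rw [abs_of_pos (mul_pos h0 (by linarith))]
  have : bn n * (1 - 2 * sn (n + 1)) < 1 := by nlinarith
  nlinarith

theorem wn_D (Q : Quad) (n : ℕ) : (Q1 Q n).H (wn (n + 1)) ∈ Q.D ∧ (Q2 Q n).H (wn (n + 1)) ∈ Q.D := by
  have e : -1 + 2 * sn (n + 1) = -(1 - 2 * sn (n + 1)) := by ring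
  have a := wn_in n (an_pos n) ((an_lt n).trans (lt_bn n)).le
  have b := wn_in n (bn_pos n) le_rfl
  constructor
  · refine ⟨⟨an n * (1 - 2 * sn (n + 1)), bn n * (-1 + 2 * sn (n + 1))⟩, ⟨a, ?_⟩, rfl⟩
    show |bn n * (-1 + 2 * sn (n + 1))| < 1
    rwa [e, mul_neg, abs_neg]
  · refine ⟨⟨bn n * (1 - 2 * sn (n + 1)), an n * (-1 + 2 * sn (n + 1))⟩, ⟨b, ?_⟩, rfl⟩
    show |an n * (-1 + 2 * sn (n + 1))| < 1
    rwa [e, mul_neg, abs_neg]

/-- The crossing probability for a uniform colouring of the points of `Y` in the ball of radius `R`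
(the other points are white). -/
noncomputable def qp (Q : Quad) (i j : Fin 4) (R : ℝ) (Y : Set ℂ) : ℝ :=
  qpr (Y ∩ ball 0 R) fun W => Q.Cross i j (⋃ v ∈ W, vcell Y v)

theorem xbound' (Q : Quad) : ∃ R₀ : ℝ, ∀ R ≥ R₀, ∃ r1 R1 : ℕ → ℝ, (∀ n, 0 < r1 n) ∧
    ∀ η > 0, ∀ δ > 0, ∀ᶠ n in atTop, ∀ᶠ m in whp.{u}, ∀ (r ρ : ℝ) (D : Dom),
      r ≤ r1 n → ρ ≤ r1 n → Win D.X (pts m.2) (closedBall 0 (R1 n)) ρ →
      (QDom (QA Q n) r D.X D.b D.O → ∃ z ∈ Q.D, dist z (Q.mark 1) < δ ∧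
        D.Hz 2 z ≤ qp (Q1 Q n) 0 2 R (pts m.2) + η) ∧
      (QDom (QA' Q n) r D.X D.b D.O → ∃ z ∈ Q.D, dist z (Q.mark 1) < δ ∧
        D.Hz 1 z ≤ qp (Q2 Q n) 1 3 R (pts m.2) + η) := by
  obtain ⟨ra, hra, hBa⟩ := exists_r0' Q.H
  obtain ⟨rb, hrb, hBb⟩ := exists_r0' (rf.trans Q.H)
  have hcb : (rf.trans Q.H) (corner 1) = Q.H (corner 1) := by
    show Q.H (rf (corner 1)) = _
    rw [rf_corner]
  rw [hcb] at hBb
  obtain ⟨R₀, hR₀⟩ := ((isCompact_box 3 3).image Q.H.continuous).isBounded.subset_closedBall (0 : ℂ)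
  refine ⟨R₀ + 2, fun R hR => ?_⟩
  have hRb : ∀ (n : ℕ) (c d : ℝ), 0 < c → c ≤ bn n → 0 < d → d ≤ bn n → ∀ z : ℂ, |z.re| ≤ 2 →
      |z.im| ≤ 2 → ‖Q.H ⟨c * z.re, d * z.im⟩‖ < R - 1 := by
    intro n c d c0 c1 d0 d1 z h1 h2
    have e1 := bn_le n
    have e2 := sn_le n
    have := hR₀ ⟨⟨c * z.re, d * z.im⟩, ⟨by
      show |c * z.re| ≤ 3
      rw [abs_mul, abs_of_pos c0]
      nlinarith [abs_nonneg z.re], by
      show |d * z.im| ≤ 3
      rw [abs_mul, abs_of_pos d0]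
      nlinarith [abs_nonneg z.im]⟩, rfl⟩
    rw [mem_closedBall, dist_zero_right] at this
    linarith
  have ab := fun n => ((an_lt n).trans (lt_bn n)).le
  choose r2 hr2 R2 h2 using fun n => xdet02 (Q1 Q n) isClosed_closedBall.isOpen_compl (hBa n)
    (n + 1) (hRb n _ _ (an_pos n) (ab n) (bn_pos n) le_rfl)
  choose r3 hr3 R3 h3 using fun n => xdet13 (Q2 Q n) isClosed_closedBall.isOpen_compl
    (fun z a b c => by rw [rf_Q2]; exact hBb n z a b c)
    (n + 1) (hRb n _ _ (bn_pos n) le_rfl (an_pos n) (ab n))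
  refine ⟨fun n => min (r2 n) (r3 n), fun n => max (R2 n) (R3 n),
    fun n => lt_min (hr2 n) (hr3 n), ?_⟩
  intro η hη δ hδ
  obtain ⟨δa, hδa, ha⟩ := F.armStmt.{u} ra hra η hη
  obtain ⟨δb, hδb, hb⟩ := F.armStmt.{u} rb hrb η hη
  have harm : ∀ (A : Set ℂ) (δ' r' : ℝ), A ⊆ ball (Q.mark 1) δ' → ∀ (Y N : Set ℂ), N.Finite →
      qpr N (fun W => UArm Y W A (closedBall (Q.mark 1) r')ᶜ) ≤
      qpr N (fun W => UArm Y W (closedBall (Q.mark 1) δ') (ball (Q.mark 1) r')ᶜ) := by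
    intro A δ' r' hsub Y N hN
    refine qpr_mono hN fun W _ h => h.mono (fun a _ b _ h => h) subset_rfl
      (hsub.trans ball_subset_closedBall) ?_
    exact compl_subset_compl.2 ball_subset_closedBall
  filter_upwards [eventually_small' Q.H hδ, eventually_small' Q.H hδa,
    eventually_small' (rf.trans Q.H) hδb] with n hn1 hn2 hn3
  filter_upwards [ha (Q.mark 1), hb (Q.mark 1), whp_finite.{u} R] with m hma hmb hfin
  intro r ρ D hr hρ hw
  have hsubN : pts m.2 ∩ ball 0 R ⊆ pts m.2 := inter_subset_left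
  refine ⟨fun hQ => ⟨_, (wn_D Q n).1, (hn1 _ (wn_mem (n + 1))).1, ?_⟩,
    fun hQ => ⟨_, (wn_D Q n).2, (hn1 _ (wn_mem (n + 1))).2, ?_⟩⟩
  · have h4 := h2 n D (pts m.2) ρ r (hr.trans (min_le_left _ _)) (hρ.trans (min_le_left _ _))
      (by rw [QA_Q1]; exact hQ)
      ⟨hw.fin, hw.pos, fun z hz => hw.iff z (closedBall_subset_closedBall (le_max_left _ _) hz),
        hw.net.mono (closedBall_subset_closedBall (le_max_left _ _)) le_rfl⟩ hfin
    have h6 := harm ((Q1 Q n).H '' ball (corner 1) (6 * sn (n + 1))) δa ra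
      (by rintro _ ⟨z, hz, rfl⟩; exact (hn2 z hz).1) (pts m.2) (pts m.2 ∩ ball 0 R) hfin
    have h7 := hma _ hsubN hfin
    rw [← mark_eq] at h4
    unfold qp
    linarith
  · have h4 := h3 n D (pts m.2) ρ r (hr.trans (min_le_right _ _)) (hρ.trans (min_le_right _ _))
      (by rw [QA_Q2]; exact hQ)
      ⟨hw.fin, hw.pos, fun z hz => hw.iff z (closedBall_subset_closedBall (le_max_right _ _) hz),
        hw.net.mono (closedBall_subset_closedBall (le_max_right _ _)) le_rfl⟩ hfin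
    have h6 := harm ((rf.trans (Q2 Q n).H) '' ball (corner 1) (6 * sn (n + 1))) δb rb
      (by
        rintro _ ⟨z, hz, rfl⟩
        rw [rf_Q2, mark_eq, ← hcb]
        exact (hn3 z hz).1) (pts m.2) (pts m.2 ∩ ball 0 R) hfin
    have h7 := hmb _ hsubN hfin
    rw [← mark_eq] at h4
    unfold qp
    linarith

/-- Lower bounds, with high probability. -/
theorem whp_low {Q : Quad} {φ : ℂ → ℂ} {x : ℝ} (hφ : Q.IsUniformizer φ x) :
    ∃ R₀ : ℝ, ∀ R ≥ R₀, ∀ η > 0, ∀ᶠ n in atTop, ∀ᶠ m in whp.{u},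
      cardy x - η ≤ qp (Q1 Q n) 0 2 R (pts m.2) ∧ 1 - cardy x - η ≤ qp (Q2 Q n) 1 3 R (pts m.2) := by
  obtain ⟨R₀, h⟩ := xbound'.{u} Q
  refine ⟨R₀, fun R hR η hη => ?_⟩
  obtain ⟨r1, R1, hr1, hX⟩ := h R hR
  obtain ⟨E, hE, hE'⟩ := H592.convD.{u} Q (QA Q) (Or.inl rfl) r1 R1 hr1
  obtain ⟨G, hG, hG'⟩ := H592.convD.{u} Q (QA' Q) (Or.inr rfl) r1 R1 hr1
  have hm : Tendsto Prod.snd lX.{u} whp.{u} := (map_snd_curry _ _).le
  have hL := H144.lln_of_MEU H566.meu.{u}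
  obtain ⟨δ2, hδ2, k2⟩ := (F.limit_of_stmts F.bvStmt F.sStmt hL hφ hm hE).1 (η / 2) (by positivity)
  obtain ⟨δ1, hδ1, k1⟩ := (F.limit_of_stmts F.bvStmt F.sStmt hL hφ hm hG).2 (η / 2) (by positivity)
  rw [lX, eventually_curry_iff] at k1 k2
  filter_upwards [hX (η / 2) (by positivity) δ2 hδ2, hX (η / 2) (by positivity) δ1 hδ1, k1, k2]
    with n a2 a1 k1 k2
  filter_upwards [a2, a1, k1, k2, hE' n, hG' n] with m a2 a1 k1 k2 h1 h2
  obtain ⟨r, ρ, h3, h4, h5, h6⟩ := h1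
  obtain ⟨r', ρ', h3', h4', h5', h6'⟩ := h2
  obtain ⟨z, hz, hzd, hzq⟩ := (a2 r ρ _ h3 h4 h6).1 h5
  obtain ⟨z', hz', hzd', hzq'⟩ := (a1 r' ρ' _ h3' h4' h6').2 h5'
  have e2 := abs_le.1 (k2 z hz hzd)
  have e1 := abs_le.1 (k1 z' hz' hzd')
  constructor <;> linarith [e1.1, e2.1]

theorem measurable_img {f : Pt → Pt} (hf : Measurable f) (hb : ∀ A, Bdd A → Bdd (f ⁻¹' A)) :
    @Measurable _ _ voidSigma voidSigma fun T : Set Pt => f '' T := by
  refine @measurable_void _ voidSigma _ fun A hm hA => ?_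
  have h1 : {T : Set Pt | f '' T ∩ A = ∅} = {T : Set Pt | T ∩ f ⁻¹' A = ∅} := by
    ext T
    simp only [mem_ofPred_eq, ← disjoint_iff_inter_eq_empty, disjoint_left,
      mem_preimage, forall_mem_image]
  rw [h1]
  exact measurableSet_voidEvent (hf hm) (hb A hA)

theorem qpr_add_le {N : Set ℂ} (hN : N.Finite) {A B : Set ℂ → Prop}
    (h : ∀ W ⊆ N, A W → B W → False) : qpr N A + qpr N B ≤ 1 := by
  refine le_trans (le_of_eq ?_) (qpr_le_one hN fun W => A W ∨ B W)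
  unfold qpr
  rw [← add_div, ← Nat.cast_add, ← Set.ncard_union_eq ?_ (finite_subs hN A) (finite_subs hN B)]
  · congr 3
    ext W
    simp only [mem_union, mem_ofPred_eq, and_or_left]
  · exact disjoint_left.2 fun W h1 h2 => h W h1.1 h1.2 h2.2

/-- Quenched duality. -/
theorem whp_dual (Q : Quad) (R : ℝ) :
    ∀ᶠ m in whp.{u}, qp Q 0 2 R (pts m.2) + qp Q 1 3 R (pts m.2) ≤ 1 := by
  classical
  refine whp_of_ae (A := fun _ T => qp Q 0 2 R (pts T) + qp Q 1 3 R (pts T) ≤ 1) ?_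
  intro ε hε Ω _ P _ S hS
  have hlam : 0 < Real.toNNReal (ε ^ (-2 : ℤ)) := Real.toNNReal_pos.2 (by positivity)
  have hM : MeasCrossStmt.{0} := measCross
  set E : Set (Set Pt) := crossSet Q 0 2 ∩ flip ⁻¹' crossSet Q 1 3 with hE
  have hfl : @Measurable _ _ voidSigma voidSigma flip :=
    measurable_img ((IsometryEquiv.refl ℂ).continuous.measurable.prodMap Measurable.of_discrete)
      fun A ⟨r, hr⟩ => ⟨r, fun q hq => ⟨(hr hq).1, mem_univ _⟩⟩
  have hEm : MeasurableSet[voidSigma] E :=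
    @MeasurableSet.inter _ voidSigma _ _ (measurable_crossSet hM Q 0 2)
      (hfl (measurable_crossSet hM Q 1 3))
  have hF := @F.measurable_ind (Set Pt) voidSigma _ hEm
  have h0 : ∫⁻ ω, avg (ball 0 R) (E.indicator 1) (S ω) ∂P = 0 := by
    rw [lintegral_avg hS measurableSet_ball isBounded_ball hF]
    refine lintegral_eq_zero_of_ae_eq_zero ?_
    filter_upwards [ae_goodBd' kPoint2 colours2 hlam Q hS] with ω hω
    exact indicator_of_notMem
      (fun k => (dichotomy (dual sep) notBoth tame Q (S ω) hω).1 k.1 k.2) _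
  rw [lintegral_eq_zero_iff (measurable_avg hS measurableSet_ball isBounded_ball hF)] at h0
  filter_upwards [h0] with ω hω
  set T := S ω
  set N : Set ℂ := pts T ∩ ball 0 R with hN
  have hfin : N.Finite := H729.finite_pts hS isBounded_ball ω
  have : Finite N := hfin
  have := Fintype.ofFinite N
  have hr : range (Subtype.val : N → ℂ) = pts T ∩ ball 0 R := Subtype.range_coe
  have h1 : avg (ball 0 R) (E.indicator 1) T = 0 := hω
  rw [avg_eq_sum Subtype.val_injective hr (hS.oneColour ω), mul_eq_zero,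
    Finset.sum_eq_zero_iff] at h1
  have h2 := h1.resolve_left (by simp)
  unfold qp
  rw [← qpr_compl (N := N) fun W => Q.Cross 1 3 (⋃ v ∈ W, vcell (pts T) v)]
  refine qpr_add_le hfin fun W hW ⟨K, hK, k1⟩ ⟨K', hK', k2⟩ => ?_
  set c : N → Bool := fun i => decide (i.1 ∈ W)
  set S' := paint T (ball 0 R) Subtype.val c
  have hpts : pts S' = pts T := pts_paint c hr
  have ht : ∀ v ∈ W, (v, true) ∈ S' := fun v hv =>
    (mem_paint_of_mem c (q := (v, true)) (hW hv).2).2 ⟨⟨v, hW hv⟩, rfl, decide_eq_true hv⟩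
  have hf : ∀ v ∈ N \ W, (v, false) ∈ S' := fun v hv =>
    (mem_paint_of_mem c (q := (v, false)) hv.1.2).2 ⟨⟨v, hv.1⟩, rfl, decide_eq_false hv.2⟩
  obtain ⟨z1, hz1⟩ := k1.1.nonempty
  obtain ⟨z2, hz2⟩ := k2.1.nonempty
  obtain ⟨v1, hv1, -⟩ := mem_iUnion₂.1 (hK hz1).1
  obtain ⟨v2, hv2, -⟩ := mem_iUnion₂.1 (hK' hz2).1
  have h3 : S' ∈ E := by
    refine ⟨⟨K, fun z hz => ⟨?_, (hK hz).2⟩, k1⟩, ⟨K', fun z hz => ⟨?_, (hK' hz).2⟩, k2⟩⟩
    · obtain ⟨v, hv, hzv⟩ := mem_iUnion₂.1 (hK hz).1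
      exact vcell_sub_gap (ht v hv) ⟨v2, hf v2 hv2⟩ (by rw [hpts]; exact hzv)
    · obtain ⟨v, hv, hzv⟩ := mem_iUnion₂.1 (hK' hz).1
      show gap (flip S') z ≤ 0
      rw [gap_flip, neg_nonpos, gap, sub_nonneg]
      refine (le_infDist ⟨v1, ht v1 hv1⟩).2 fun w hw => ?_
      exact (infDist_le_dist_of_mem (s := col S' false) (hf v hv)).trans
        (hzv w (hpts ▸ ⟨(w, true), hw, rfl⟩))
  have h4 := h2 c (Finset.mem_univ _)
  rw [indicator_of_mem h3] at h4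
  exact one_ne_zero h4

/-- **The quenched bounds for the two quads of the sandwich.** -/
theorem whp_two {Q : Quad} {φ : ℂ → ℂ} {x : ℝ} (hφ : Q.IsUniformizer φ x) :
    ∃ R₀ : ℝ, ∀ R ≥ R₀, ∀ η > 0, ∀ᶠ n in atTop, ∀ᶠ m in whp.{u},
      cardy x - η ≤ qp (Q1 Q n) 0 2 R (pts m.2) ∧ qp (Q2 Q n) 0 2 R (pts m.2) ≤ cardy x + η := by
  obtain ⟨R₀, h⟩ := whp_low.{u} hφ
  refine ⟨R₀, fun R hR η hη => ?_⟩
  filter_upwards [h R hR η hη] with n hn
  filter_upwards [hn, whp_dual.{u} (Q2 Q n) R] with m h1 h2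
  exact ⟨h1.1, by linarith [h1.2]⟩

end Vale.Agent.N148
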