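import Vale.Agent.N148.Low
import Vale.Agent.P148M96.Main

/-!
# P148: stability of the crossing events under perturbations of the quad
-/

open MeasureTheory Set Metric Topology Filter ProbabilityTheory
open scoped ENNReal NNReal

namespace Vale.Agent.N148

open _root_.P148
open Vale.Agent.P148.R2
open Vale.Agent.P148.R2.F (qcross whp)
open Vale.Agent.P148.R2.H990
open Vale.Agent.P148M96

universe u

theorem two_prob {Q : Quad} {φ : ℂ → ℂ} {x : ℝ} (hφ : Q.IsUniformizer φ x) {κ : ℝ} (hκ : 0 < κ) :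
    ∃ n, ∀ (Ω : ℝ → Type u) [∀ ε, MeasurableSpace (Ω ε)] (P : ∀ ε, Measure (Ω ε))
      [∀ ε, IsProbabilityMeasure (P ε)] (S : ∀ ε, Ω ε → Set Pt),
      (∀ ε > 0, IsColouredPoisson (P ε) (S ε) (Real.toNNReal (ε ^ (-2 : ℤ)))) →
      ∀ᶠ ε in 𝓝[>] 0, cardy x - κ ≤ (P ε {ω | (Q1 Q n).Cross 0 2 (blackRegion (S ε ω))}).toReal ∧
        (P ε {ω | (Q2 Q n).Cross 0 2 (blackRegion (S ε ω))}).toReal ≤ cardy x + κ := by
  obtain ⟨R, h⟩ := whp_low.{u} hφ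
  obtain ⟨n, hn⟩ := (h R le_rfl (κ / 2) (by positivity)).exists
  refine ⟨n, fun Ω _ P _ S hS => ?_⟩
  have k : ∀ᶠ m in whp.{u}, cardy x - κ / 2 ≤ qcross (Q1 Q n) 0 2 R m.2 ∧
      1 - cardy x - κ / 2 ≤ qcross (Q2 Q n) 1 3 R m.2 := by
    filter_upwards [hn, whp_oneCol.{u}, whp_finite.{u} R, whp_white.{u} R] with m h1 h2 h3 h4
    exact ⟨h1.1.trans (qpr_le_qcross _ 0 2 h3 h2 h4), h1.2.trans (qpr_le_qcross _ 1 3 h3 h2 h4)⟩
  filter_upwards [F.eventually_cross_ge hS _ 0 2 R (k.mono fun _ a => a.1) (half_pos hκ),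
    F.eventually_cross_ge hS _ 1 3 R (k.mono fun _ a => a.2) (half_pos hκ), self_mem_nhdsWithin]
    with ε b1 b2 hε
  have hε' : (0 : ℝ) < ε := hε
  have hlam : 0 < Real.toNNReal (ε ^ (-2 : ℤ)) := Real.toNNReal_pos.2 (by positivity)
  have hsum := congrArg ENNReal.toReal
    (duality kPoint2 colours2 hlam (hS ε hε') (Q2 Q n)).2.2.2.1
  rw [ENNReal.toReal_add (measure_ne_top _ _) (measure_ne_top _ _), ENNReal.toReal_one] at hsum
  constructor <;> linarith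

theorem vor_eq (Y : Set ℂ) (v : ℂ) : vor Y v = vcell Y v := by
  simp only [vor, vcell, dist_eq_norm]

/-- Both sandwiches, for unions of cells. -/
theorem sand_cells {Q : JQuad} (hQ : Ccw Q) {P : Quad} (hD : P.D = Q.D)
    (hA : ∀ i, P.arc i = Q.arc i) (n : ℕ) : ∃ δ > 0, ∀ Q' : JQuad, Close δ Q' Q → ∀ Y W : Set ℂ,
      (∀ r, (Y ∩ ball 0 r).Finite) → W ⊆ Y →
      ((Q1 P n).Cross 0 2 (⋃ v ∈ W, vcell Y v) → PathCross Q' (⋃ v ∈ W, vcell Y v)) ∧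
      (Q'.Cross 0 2 (⋃ v ∈ W, vcell Y v) → (Q2 P n).Cross 0 2 (⋃ v ∈ W, vcell Y v)) := by
  obtain ⟨δ, hδ, h⟩ := sandwich hQ hD hA (an_pos n) (bn_pos n) (an_lt n) (lt_bn n)
  obtain ⟨δ', hδ', h'⟩ := sandwich_path hQ hD hA (an_pos n) (bn_pos n) (an_lt n) (lt_bn n)
  exact ⟨min δ δ', lt_min hδ hδ', fun Q' hc Y W hY hW =>
    ⟨h' Q' (fun t => (hc t).trans_le (min_le_right _ _)) _ (cells_star hY hW),
      (h Q' (fun t => (hc t).trans_le (min_le_left _ _)) _ (cells_closed hY hW)).2⟩⟩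

theorem sand {Q : JQuad} {φ : ℂ → ℂ} {x : ℝ} (hφ : Q.IsUniformizer φ x) {κ : ℝ} (hκ : 0 < κ) :
    ∃ δ > 0, ∀ (Ω : ℝ → Type u) [∀ ε, MeasurableSpace (Ω ε)] (P : ∀ ε, Measure (Ω ε))
      [∀ ε, IsProbabilityMeasure (P ε)] (η : ∀ ε, Ω ε → Set ℂ) (col : ∀ ε, Ω ε → ℂ → Bool),
      Model P η col → ∀ᶠ ε in 𝓝[>] 0, ∃ A₁ A₂ : Set (Ω ε), NullMeasurableSet A₁ (P ε) ∧
        cardy x - κ ≤ (P ε A₁).toReal ∧ (P ε A₂).toReal ≤ cardy x + κ ∧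
        ∀ ω Q', Close δ Q' Q → (ω ∈ A₁ → PathCross Q' (black (η ε ω) (col ε ω))) ∧
          (Q'.Cross 0 2 (black (η ε ω) (col ε ω)) → ω ∈ A₂) := by
  obtain ⟨T, e1, e2, e3⟩ := H771.exists_quad Q
  obtain ⟨n, hn⟩ := two_prob.{u} ((H771.unif_iff e1 e2 φ x).1 hφ) hκ
  obtain ⟨δ, hδ, hs⟩ := sand_cells (ccw_of hφ) e1 e3 n
  refine ⟨δ, hδ, fun Ω _ P _ η col h => ?_⟩
  choose! c' a b using fun ε (k : ε > 0) => mark (h ε k).1 (h ε k).2.choose_spec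
  filter_upwards [hn Ω P (fun ε ω => marked (η ε ω) (c' ε ω)) b, self_mem_nhdsWithin] with ε k hε
  have hε' : (0 : ℝ) < ε := hε
  have hlam : 0 < Real.toNNReal (ε ^ (-2 : ℤ)) := Real.toNNReal_pos.2 (by positivity)
  have ev : ∀ X : Quad, {ω | X.Cross 0 2 (blackRegion (marked (η ε ω) (c' ε ω)))} =ᵐ[P ε]
      {ω | X.Cross 0 2 (black (η ε ω) (col ε ω))} := fun X => (a ε hε').mono fun ω k => by
    change X.Cross 0 2 _ = X.Cross 0 2 _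
    rw [black_marked, k]
  rw [measure_congr (ev _), measure_congr (ev _)] at k
  refine ⟨_, _, (H771.nullMeasurable_cross hlam (b ε hε') (Q1 T n)).congr (ev _), k.1, k.2,
    fun ω Q' hc => ?_⟩
  have := hs Q' hc (η ε ω) {v ∈ η ε ω | col ε ω v = true} ((h ε hε').1.locFin ω) (sep_subset _ _)
  simpa only [black, vor_eq, mem_ofPred_eq] using this

theorem close_self {δ : ℝ} (hδ : 0 < δ) (Q : JQuad) : Close δ Q Q := fun t => by simpa using hδ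

/-- **Continuity of the crossing events.** -/
theorem stable {Q : JQuad} {φ : ℂ → ℂ} {x : ℝ} (hφ : Q.IsUniformizer φ x) {κ : ℝ} (hκ : 0 < κ) :
    ∃ δ > 0, ∀ (Ω : ℝ → Type u) [∀ ε, MeasurableSpace (Ω ε)] (P : ∀ ε, Measure (Ω ε))
      [∀ ε, IsProbabilityMeasure (P ε)] (η : ∀ ε, Ω ε → Set ℂ) (col : ∀ ε, Ω ε → ℂ → Bool),
      Model P η col → ∀ᶠ ε in 𝓝[>] 0,
        P ε {ω | ∃ Q₁ Q₂, Close δ Q₁ Q ∧ Close δ Q₂ Q ∧ Q₁.Cross 0 2 (black (η ε ω) (col ε ω)) ∧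
          ¬ PathCross Q₂ (black (η ε ω) (col ε ω))} ≤ ENNReal.ofReal κ := by
  obtain ⟨δ, hδ, h⟩ := sand.{u} hφ (half_pos hκ)
  refine ⟨δ, hδ, fun Ω _ P _ η col hm => ?_⟩
  filter_upwards [h Ω P η col hm] with ε ⟨A₁, A₂, m, k1, k2, k⟩
  have s : A₁ ⊆ A₂ := fun ω a =>
    (k ω Q (close_self hδ Q)).2 ((k ω Q (close_self hδ Q)).1 a).cross
  refine (measure_mono (t := A₂ \ A₁) ?_).trans ?_
  · rintro ω ⟨Q₁, Q₂, c1, c2, a, b⟩
    exact ⟨(k ω Q₁ c1).2 a, fun j => b ((k ω Q₂ c2).1 j)⟩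
  · have e := congrArg ENNReal.toReal (measure_inter_add_sdiff₀ A₂ m)
    rw [ENNReal.toReal_add (measure_ne_top _ _) (measure_ne_top _ _),
      inter_eq_self_of_subset_right s] at e
    exact (ENNReal.le_ofReal_iff_toReal_le (measure_ne_top _ _) hκ.le).2 (by linarith)

theorem PathCross.of_rev {Q : JQuad} {R : Set ℂ} (h : PathCross Q.rev R) : PathCross Q R := by
  obtain ⟨p, hc, h0, h1, hR, hD⟩ := h
  rw [H771.rev_arc Q (i := 0) (j := 2) rfl] at h0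
  rw [H771.rev_arc Q (i := 2) (j := 0) rfl] at h1
  have m : MapsTo (fun t : ℝ => 1 - t) (Icc 0 1) (Icc 0 1) := fun t ht =>
    ⟨by linarith [ht.2], by linarith [ht.1]⟩
  exact ⟨fun t => p (1 - t), hc.comp (by fun_prop) m, by simpa using h1, by simpa using h0,
    fun t ht => hR _ (m ht), fun t ht => hD _ ⟨by linarith [ht.2], by linarith [ht.1]⟩⟩

theorem stable_all (Q : JQuad)
    (h : (∃ φ x, Q.IsUniformizer φ x) ∨ ∃ φ x, Q.rev.IsUniformizer φ x) {κ : ℝ} (hκ : 0 < κ) :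
    ∃ δ > 0, ∀ (Ω : ℝ → Type u) [∀ ε, MeasurableSpace (Ω ε)] (P : ∀ ε, Measure (Ω ε))
      [∀ ε, IsProbabilityMeasure (P ε)] (η : ∀ ε, Ω ε → Set ℂ) (col : ∀ ε, Ω ε → ℂ → Bool),
      Model P η col → ∀ᶠ ε in 𝓝[>] 0,
        P ε {ω | ∃ Q₁ Q₂, Close δ Q₁ Q ∧ Close δ Q₂ Q ∧ Q₁.Cross 0 2 (black (η ε ω) (col ε ω)) ∧
          ¬ PathCross Q₂ (black (η ε ω) (col ε ω))} ≤ ENNReal.ofReal κ := by
  rcases h with ⟨φ, x, h⟩ | ⟨φ, x, h⟩
  · exact stable h hκ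
  · obtain ⟨δ, hδ, k⟩ := stable.{u} h hκ
    refine ⟨δ, hδ, fun Ω _ P _ η col m => (k Ω P η col m).mono fun ε j => le_trans
      (measure_mono ?_) j⟩
    rintro ω ⟨Q₁, Q₂, a, b, c, d⟩
    exact ⟨Q₁.rev, Q₂.rev, fun t => a _, fun t => b _, (H771.rev_cross Q₁ _).2 c,
      fun e => d e.of_rev⟩

/-- **Moving quads, connected sets and paths.** -/
theorem moving {Q : JQuad} {φ : ℂ → ℂ} {x : ℝ} (hφ : Q.IsUniformizer φ x) (q : ℝ → JQuad)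
    (hq : ∀ δ > 0, ∀ᶠ ε in 𝓝[>] 0, Close δ (q ε) Q)
    (Ω : ℝ → Type u) [∀ ε, MeasurableSpace (Ω ε)] (P : ∀ ε, Measure (Ω ε))
    [∀ ε, IsProbabilityMeasure (P ε)] (η : ∀ ε, Ω ε → Set ℂ) (col : ∀ ε, Ω ε → ℂ → Bool)
    (hm : Model P η col) :
    Tendsto (fun ε => (P ε {ω | (q ε).Cross 0 2 (black (η ε ω) (col ε ω))}).toReal) (𝓝[>] 0)
      (𝓝 (cardy x)) ∧
    Tendsto (fun ε => (P ε {ω | PathCross (q ε) (black (η ε ω) (col ε ω))}).toReal) (𝓝[>] 0)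
      (𝓝 (cardy x)) := by
  have key : ∀ κ > 0, ∀ᶠ ε in 𝓝[>] 0,
      cardy x - κ ≤ (P ε {ω | PathCross (q ε) (black (η ε ω) (col ε ω))}).toReal ∧
      (P ε {ω | (q ε).Cross 0 2 (black (η ε ω) (col ε ω))}).toReal ≤ cardy x + κ := by
    intro κ hκ
    obtain ⟨δ, hδ, h⟩ := sand.{u} hφ hκ
    filter_upwards [h Ω P η col hm, hq δ hδ] with ε ⟨A₁, A₂, _, k1, k2, k⟩ hc
    exact ⟨k1.trans (ENNReal.toReal_mono (measure_ne_top _ _)
      (measure_mono fun ω a => (k ω _ hc).1 a)), le_trans (ENNReal.toReal_mono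
      (measure_ne_top _ _) (measure_mono fun ω a => (k ω _ hc).2 a)) k2⟩
  have le : ∀ ε, (P ε {ω | PathCross (q ε) (black (η ε ω) (col ε ω))}).toReal ≤
      (P ε {ω | (q ε).Cross 0 2 (black (η ε ω) (col ε ω))}).toReal := fun ε =>
    ENNReal.toReal_mono (measure_ne_top _ _) (measure_mono fun ω a => PathCross.cross a)
  constructor <;> refine Metric.tendsto_nhds.2 fun κ hκ => ?_ <;>
    filter_upwards [key _ (half_pos hκ)] with ε k <;> rw [Real.dist_eq, abs_lt] <;>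
    constructor <;> linarith [le ε, k.1, k.2]

end Vale.Agent.N148
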