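import Vale.Agent.N148.Defs
import Vale.Agent.P148M96.Ori
import Vale.Agent.P148.R2.H990.X13

/-!
# P148: crossings of nearby quads are sandwiched between two fixed quads
-/

open Set Metric Topology Filter
open scoped Real

namespace Vale.Agent.N148

open _root_.P148
open Vale.Agent.P148.R2
open Vale.Agent.P148.R2.H990 (scl vcell isClosed_vcell convex_vcell)
open Vale.Agent.P148M96 (Ccw ex_log cst)

/-- A continuum which goes through an open set `D` from one side to the other contains a crossing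
of the closure of `D`. -/
theorem subcross {K D A A' : Set ℂ} (hK : IsCompact K) (hKc : IsPreconnected K) (hD : IsOpen D)
    (hA : IsClosed A) (hA' : IsClosed A') {f : ℂ → ℝ} (hf : Continuous f)
    (h0 : ∀ z ∈ K, f z = 0 → z ∈ D)
    (hfr : ∀ z ∈ K, z ∈ closure D → z ∉ D → (f z ≤ 0 → z ∈ A) ∧ (0 ≤ f z → z ∈ A'))
    (hp : ∃ p ∈ K, p ∉ D ∧ f p ≤ 0) (hq : ∃ q ∈ K, q ∉ D ∧ 0 ≤ f q) :
    ∃ K' ⊆ K ∩ closure D, IsConnected K' ∧ (K' ∩ A).Nonempty ∧ (K' ∩ A').Nonempty := by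
  by_contra hcon
  obtain ⟨F₁, F₂, c1, c2, hdis, hun, s1, s2⟩ :=
    sep (K ∩ closure D) A A' (hK.inter_right isClosed_closure) hA hA' hcon
  have e1 : IsClosed (F₁ ∪ (K ∩ Dᶜ ∩ {z | f z ≤ 0})) :=
    c1.isClosed.union ((hK.isClosed.inter hD.isClosed_compl).inter (isClosed_le hf continuous_const))
  have e2 : IsClosed (F₂ ∪ (K ∩ Dᶜ ∩ {z | 0 ≤ f z})) :=
    c2.isClosed.union ((hK.isClosed.inter hD.isClosed_compl).inter (isClosed_le continuous_const hf))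
  have hF₁ : F₁ ⊆ K ∩ closure D := hun ▸ subset_union_left
  have hF₂ : F₂ ⊆ K ∩ closure D := hun ▸ subset_union_right
  have hcov : K ⊆ (F₁ ∪ (K ∩ Dᶜ ∩ {z | f z ≤ 0})) ∪ (F₂ ∪ (K ∩ Dᶜ ∩ {z | 0 ≤ f z})) := by
    intro z hz
    by_cases hzD : z ∈ D
    · have : z ∈ F₁ ∪ F₂ := hun ▸ ⟨hz, subset_closure hzD⟩
      rcases this with h | h
      · exact Or.inl (Or.inl h)
      · exact Or.inr (Or.inl h)
    · rcases le_total (f z) 0 with h | h
      · exact Or.inl (Or.inr ⟨⟨hz, hzD⟩, h⟩)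
      · exact Or.inr (Or.inr ⟨⟨hz, hzD⟩, h⟩)
  obtain ⟨p, hpK, hpD, hpf⟩ := hp
  obtain ⟨q, hqK, hqD, hqf⟩ := hq
  obtain ⟨z, hzK, hz1, hz2⟩ := isPreconnected_closed_iff.1 hKc _ _ e1 e2 hcov
    ⟨p, hpK, Or.inr ⟨⟨hpK, hpD⟩, hpf⟩⟩ ⟨q, hqK, Or.inr ⟨⟨hqK, hqD⟩, hqf⟩⟩
  rcases hz1 with h1 | h1 <;> rcases hz2 with h2 | h2
  · exact disjoint_left.1 hdis h1 h2
  · exact disjoint_left.1 hdis h1 (s2 ⟨hF₁ h1, (hfr z hzK (hF₁ h1).2 h2.1.2).2 h2.2⟩)
  · exact disjoint_left.1 hdis (s1 ⟨hF₂ h2, (hfr z hzK (hF₂ h2).2 h1.1.2).1 h1.2⟩) h2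
  · exact h1.1.2 (h0 z hzK (le_antisymm h1.2 h2.2))

/-- Homotopy invariance of the winding number. -/
theorem wind_eq {f : ℝ × ℝ → ℂ} (hf : Continuous f) (h0 : ∀ q, f q ≠ 0)
    (hp : ∀ r, f (4, r) = f (0, r)) {L₀ L₁ : ℝ → ℂ} (c0 : Continuous L₀) (c1 : Continuous L₁)
    (e0 : ∀ t, Complex.exp (L₀ t) = f (t, 0)) (e1 : ∀ t, Complex.exp (L₁ t) = f (t, 1)) :
    L₀ 4 - L₀ 0 = L₁ 4 - L₁ 0 := by
  obtain ⟨l, lc, hl⟩ := ex_log hf h0
  have a : l (4, 0) - l (0, 0) = l (4, 1) - l (0, 1) :=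
    cst (f := fun r => l (4, r) - l (0, r)) (by fun_prop) (c := 1) (fun r => by
      rw [Complex.exp_sub, hl, hl, hp, div_self (h0 _)]) 0 1
  have b : L₀ 4 - l (4, 0) = L₀ 0 - l (0, 0) :=
    cst (f := fun t => L₀ t - l (t, 0)) (by fun_prop) (c := 1) (fun t => by
      rw [Complex.exp_sub, hl, e0, div_self (h0 _)]) 4 0
  have c : L₁ 4 - l (4, 1) = L₁ 0 - l (0, 1) :=
    cst (f := fun t => L₁ t - l (t, 1)) (by fun_prop) (c := 1) (fun t => by
      rw [Complex.exp_sub, hl, e1, div_self (h0 _)]) 4 0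
  linear_combination a + b - c

theorem gamma_mem (Q : JQuad) (t : AddCircle (4 : ℝ)) : Q.γ t ∈ frontier Q.D :=
  Q.bdry.symm.subset ⟨t, rfl⟩

theorem gamma_four (Q : JQuad) : Q.γ ((4 : ℝ) : AddCircle (4 : ℝ)) = Q.γ ((0 : ℝ) : AddCircle (4 : ℝ)) := by
  have := AddCircle.coe_add_period (4 : ℝ) 0
  rw [zero_add] at this
  rw [this]

/-- A point of a counterclockwise quad is in the closure of all nearby quads. -/
theorem mem_closure_of_close {Q Q' : JQuad} (hQ : Ccw Q) {z : ℂ} (hz : z ∈ Q.D) {δ : ℝ}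
    (hδ : ∀ t, δ ≤ dist (Q.γ t) z) (h : Close δ Q' Q) : z ∈ closure Q'.D := by
  by_contra hn
  obtain ⟨L, Lc, hL, e⟩ := hQ z hz
  obtain ⟨P, e1, -, -⟩ := H771.exists_quad Q'
  have hcl : closure Q'.D = P.H '' sq := by rw [← e1, P.closure_D]
  have cγ : ∀ X : JQuad, Continuous fun t : ℝ => X.γ t := fun X =>
    X.cont.comp (AddCircle.continuous_mk' 4)
  have pc := continuous_projIcc (a := (0 : ℝ)) (b := 1) (h := zero_le_one)
  have pc' : Continuous fun q : ℝ × ℝ => ((projIcc (0 : ℝ) 1 zero_le_one q.2 : ℝ) : ℂ) :=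
    Complex.continuous_ofReal.comp (continuous_subtype_val.comp (pc.comp continuous_snd))
  have n' : ∀ t : ℝ, Q'.γ t - z ≠ 0 := fun t k =>
    hn (sub_eq_zero.1 k ▸ frontier_subset_closure (gamma_mem Q' t))
  obtain ⟨L', Lc', hL'⟩ := ex_log ((cγ Q').sub continuous_const) n'
  have hL' : ∀ t : ℝ, Complex.exp (L' t) = Q'.γ t - z := hL'
  -- the two curves have the same winding number
  have a : L 4 - L 0 = L' 4 - L' 0 := by
    refine wind_eq (f := fun q => Q.γ q.1 - z +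
      ((projIcc 0 1 zero_le_one q.2 : ℝ) : ℂ) * (Q'.γ q.1 - Q.γ q.1)) ?_ ?_ ?_ Lc Lc' ?_ ?_
    · exact (((cγ Q).comp continuous_fst).sub continuous_const).add
        (pc'.mul (((cγ Q').comp continuous_fst).sub ((cγ Q).comp continuous_fst)))
    · intro q k
      have h1 := h q.1
      have h2 := hδ q.1
      have h3 := (projIcc (0 : ℝ) 1 zero_le_one q.2).2
      have h4 := congrArg norm (eq_neg_of_add_eq_zero_left k)
      rw [norm_neg, norm_mul, Complex.norm_real, Real.norm_of_nonneg h3.1, ← dist_eq_norm,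
        ← dist_eq_norm] at h4
      nlinarith [h3.1, h3.2, dist_nonneg (x := Q'.γ q.1) (y := Q.γ q.1)]
    · intro r
      simp only [gamma_four]
    · intro t
      simp [hL]
    · intro t
      simp [hL']
  -- the second curve is contractible in the complement of the point
  have b : (fun _ : ℝ => Complex.log (P.H 0 - z)) 4 - (fun _ : ℝ => Complex.log (P.H 0 - z)) 0 =
      L' 4 - L' 0 := by
    have hne : ∀ q : ℝ × ℝ,
        P.H (((projIcc 0 1 zero_le_one q.2 : ℝ) : ℂ) * P.H.symm (Q'.γ q.1)) - z ≠ 0 := by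
      intro q k
      apply hn
      rw [hcl, ← sub_eq_zero.1 k]
      refine mem_image_of_mem _ ?_
      have h1 : Q'.γ q.1 ∈ P.H '' sq := hcl ▸ frontier_subset_closure (gamma_mem Q' q.1)
      obtain ⟨w, hw, hw'⟩ := h1
      have h3 := (projIcc (0 : ℝ) 1 zero_le_one q.2).2
      rw [← hw', P.H.symm_apply_apply]
      constructor
      · rw [Complex.re_ofReal_mul, abs_mul, abs_of_nonneg h3.1]
        exact mul_le_one₀ h3.2 (abs_nonneg _) hw.1
      · rw [Complex.im_ofReal_mul, abs_mul, abs_of_nonneg h3.1]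
        exact mul_le_one₀ h3.2 (abs_nonneg _) hw.2
    refine wind_eq (f := fun q =>
      P.H (((projIcc 0 1 zero_le_one q.2 : ℝ) : ℂ) * P.H.symm (Q'.γ q.1)) - z) ?_ hne ?_
      continuous_const Lc' ?_ ?_
    · exact (P.H.continuous.comp (pc'.mul
        (P.H.symm.continuous.comp ((cγ Q').comp continuous_fst)))).sub continuous_const
    · intro r
      simp only [gamma_four]
    · intro t
      have := hne (t, 0)
      simp only [projIcc_left, Complex.ofReal_zero, zero_mul] at this ⊢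
      exact Complex.exp_log this
    · intro t
      simp [hL']
  rw [← a, e] at b
  simp at b

/-- The quad of the box `[-a, a] × [-b, b]` in the coordinates of `Q`. -/
noncomputable def sc (Q : Quad) (a b : ℝ) (ha : 0 < a) (hb : 0 < b) : Quad :=
  ⟨(scl a b ha.ne' hb.ne').trans Q.H⟩

theorem sc_H (Q : Quad) {a b : ℝ} (ha : 0 < a) (hb : 0 < b) (z : ℂ) :
    (sc Q a b ha hb).H z = Q.H ⟨a * z.re, b * z.im⟩ := rfl

theorem sc_symm (Q : Quad) {a b : ℝ} (ha : 0 < a) (hb : 0 < b) (z : ℂ) :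
    (sc Q a b ha hb).H.symm z = ⟨a⁻¹ * (Q.H.symm z).re, b⁻¹ * (Q.H.symm z).im⟩ := rfl

theorem mem_img {H : ℂ ≃ₜ ℂ} {A : Set ℂ} {z : ℂ} : z ∈ H '' A ↔ H.symm z ∈ A := by
  rw [← Homeomorph.preimage_symm, mem_preimage]

theorem abs_inv_mul_le {a x : ℝ} (ha : 0 < a) : |a⁻¹ * x| ≤ 1 ↔ |x| ≤ a := by
  rw [abs_mul, abs_inv, abs_of_pos ha, inv_mul_le_iff₀ ha, mul_one]

theorem abs_inv_mul_lt {a x : ℝ} (ha : 0 < a) : |a⁻¹ * x| < 1 ↔ |x| < a := by
  rw [abs_mul, abs_inv, abs_of_pos ha, inv_mul_lt_iff₀ ha, mul_one]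

theorem mem_sc_D (Q : Quad) {a b : ℝ} (ha : 0 < a) (hb : 0 < b) (z : ℂ) :
    z ∈ (sc Q a b ha hb).D ↔ |(Q.H.symm z).re| < a ∧ |(Q.H.symm z).im| < b := by
  rw [Quad.D, mem_img, sc_symm, mem_ofPred_eq, abs_inv_mul_lt ha, abs_inv_mul_lt hb]

theorem mem_sc_cl (Q : Quad) {a b : ℝ} (ha : 0 < a) (hb : 0 < b) (z : ℂ) :
    z ∈ closure (sc Q a b ha hb).D ↔ |(Q.H.symm z).re| ≤ a ∧ |(Q.H.symm z).im| ≤ b := by
  rw [Quad.closure_D, mem_img, sc_symm]
  show |a⁻¹ * (Q.H.symm z).re| ≤ 1 ∧ |b⁻¹ * (Q.H.symm z).im| ≤ 1 ↔ _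
  rw [abs_inv_mul_le ha, abs_inv_mul_le hb]

theorem mem_sc_0 (Q : Quad) {a b : ℝ} (ha : 0 < a) (hb : 0 < b) (z : ℂ) :
    z ∈ (sc Q a b ha hb).arc 0 ↔ |(Q.H.symm z).re| ≤ a ∧ (Q.H.symm z).im = -b := by
  rw [Quad.arc, mem_img, sc_symm]
  show |a⁻¹ * (Q.H.symm z).re| ≤ 1 ∧ b⁻¹ * (Q.H.symm z).im = -1 ↔ _
  rw [abs_inv_mul_le ha, inv_mul_eq_iff_eq_mul₀ hb.ne', mul_neg_one]

theorem mem_sc_2 (Q : Quad) {a b : ℝ} (ha : 0 < a) (hb : 0 < b) (z : ℂ) :
    z ∈ (sc Q a b ha hb).arc 2 ↔ |(Q.H.symm z).re| ≤ a ∧ (Q.H.symm z).im = b := by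
  rw [Quad.arc, mem_img, sc_symm]
  show |a⁻¹ * (Q.H.symm z).re| ≤ 1 ∧ b⁻¹ * (Q.H.symm z).im = 1 ↔ _
  rw [abs_inv_mul_le ha, inv_mul_eq_iff_eq_mul₀ hb.ne', mul_one]

theorem arc_closed (Q : JQuad) (i : Fin 4) : IsClosed (Q.arc i) :=
  (isCompact_Icc.image (Q.cont.comp (AddCircle.continuous_mk' 4))).isClosed

theorem frontier_arc (Q : JQuad) {z : ℂ} (hz : z ∈ frontier Q.D) : ∃ i : Fin 4, ∃ t : ℝ,
    t ∈ Icc ((i : ℕ) : ℝ) ((i : ℕ) + 1) ∧ Q.γ t = z := by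
  rw [Q.bdry] at hz
  obtain ⟨s, rfl⟩ := hz
  have : Fact ((0 : ℝ) < 4) := ⟨by norm_num⟩
  obtain ⟨t, ht, rfl⟩ := AddCircle.eq_coe_Ico s
  have h1 : ⌊t⌋₊ < 4 := (Nat.floor_lt ht.1).2 (by exact_mod_cast ht.2)
  exact ⟨⟨⌊t⌋₊, h1⟩, t, ⟨Nat.floor_le ht.1, (Nat.lt_floor_add_one t).le⟩, rfl⟩

/-- A bounded set whose frontier is in a box is in the box. -/
theorem subset_box {U : Set ℂ} (hU : IsOpen U) (hb : Bornology.IsBounded U) {c : ℝ} (hc : 0 < c)
    (hf : ∀ z ∈ frontier U, |z.re| ≤ c ∧ |z.im| ≤ c) : ∀ z ∈ U, |z.re| ≤ c ∧ |z.im| ≤ c := by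
  intro z hz
  by_contra hn
  have hz0 : z ≠ 0 := by
    rintro rfl
    exact hn ⟨by simpa using hc.le, by simpa using hc.le⟩
  have hray : ∀ t ∈ Ici (1 : ℝ), (t : ℂ) * z ∉ frontier U := by
    intro t ht k
    have ht' : (1 : ℝ) ≤ t := ht
    obtain ⟨k1, k2⟩ := hf _ k
    rw [Complex.re_ofReal_mul, abs_mul, abs_of_nonneg (by linarith)] at k1
    rw [Complex.im_ofReal_mul, abs_mul, abs_of_nonneg (by linarith)] at k2
    exact hn ⟨by nlinarith [abs_nonneg z.re], by nlinarith [abs_nonneg z.im]⟩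
  have hpre : IsPreconnected ((fun t : ℝ => (t : ℂ) * z) '' Ici 1) :=
    isPreconnected_Ici.image _ (by fun_prop)
  have hsub : (fun t : ℝ => (t : ℂ) * z) '' Ici 1 ⊆ U := by
    refine hpre.subset_of_closure_inter_subset hU ⟨z, ⟨1, self_mem_Ici, by simp⟩, hz⟩ ?_
    rintro _ ⟨h1, t, ht, rfl⟩
    by_contra k
    exact hray t ht (by rw [hU.frontier_eq]; exact ⟨h1, k⟩)
  obtain ⟨M, hM⟩ := hb.subset_closedBall (0 : ℂ)
  have hn0 : 0 < ‖z‖ := norm_pos_iff.2 hz0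
  have h1 := hM (hsub ⟨|M| / ‖z‖ + 1, by
    show (1 : ℝ) ≤ _
    have : 0 ≤ |M| / ‖z‖ := by positivity
    linarith, rfl⟩)
  rw [mem_closedBall_zero_iff, norm_mul, Complex.norm_real, Real.norm_of_nonneg (by positivity),
    add_mul, div_mul_cancel₀ _ hn0.ne'] at h1
  linarith [le_abs_self M]

/-- The position of the quads close to `Q`, in the coordinates of `P`. -/
theorem geom {Q : JQuad} (hQ : Ccw Q) {P : Quad} (hD : P.D = Q.D) (hA : ∀ i, P.arc i = Q.arc i)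
    {a b : ℝ} (ha : 0 < a) (ha1 : a < 1) (hb1 : 1 < b) :
    ∃ δ > 0, ∃ κ > 0, 2 * κ ≤ 1 - a ∧ 2 * κ ≤ b - 1 ∧ ∀ Q' : JQuad, Close δ Q' Q →
      (∀ z ∈ Q'.arc 0, (P.H.symm z).im < -1 + κ) ∧ (∀ z ∈ Q'.arc 2, 1 - κ < (P.H.symm z).im) ∧
      (∀ z ∈ frontier Q'.D, |(P.H.symm z).re| ≤ a → z ∈ Q'.arc 0 ∨ z ∈ Q'.arc 2) ∧
      (∀ z ∈ closure Q'.D, |(P.H.symm z).re| ≤ 1 + κ ∧ |(P.H.symm z).im| ≤ 1 + κ) ∧
      ∀ z, |(P.H.symm z).re| ≤ a → (P.H.symm z).im = 0 → z ∈ Q'.D := by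
  set κ : ℝ := min (1 - a) (b - 1) / 2 with hκ
  have k1 : 2 * κ ≤ 1 - a := by have := min_le_left (1 - a) (b - 1); linarith
  have k2 : 2 * κ ≤ b - 1 := by have := min_le_right (1 - a) (b - 1); linarith
  have k0 : 0 < κ := by have := lt_min (sub_pos.2 ha1) (sub_pos.2 hb1); linarith
  have : Fact ((0 : ℝ) < 4) := ⟨by norm_num⟩
  have hcpt : IsCompact (range Q.γ) := isCompact_range Q.cont
  obtain ⟨δ₁, hδ₁, h1⟩ := Metric.mem_uniformity_dist.1 (hcpt.uniformContinuousAt_of_continuousAt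
    P.H.symm (fun _ _ => P.H.symm.continuous.continuousAt) (dist_mem_uniformity k0))
  have z0 : P.H 0 ∈ Q.D := hD ▸ ⟨0, by simp, rfl⟩
  obtain ⟨δ₂, hδ₂, h2⟩ := Metric.isOpen_iff.1 Q.isOpen _ z0
  refine ⟨min δ₁ δ₂, lt_min hδ₁ hδ₂, κ, k0, k1, k2, fun Q' hc => ?_⟩
  -- the boundary of `Q'` in the coordinates of `P`
  have near : ∀ (i : Fin 4) (t : ℝ), t ∈ Icc ((i : ℕ) : ℝ) ((i : ℕ) + 1) → ∃ w ∈ side i,
      |(P.H.symm (Q'.γ t)).re - w.re| < κ ∧ |(P.H.symm (Q'.γ t)).im - w.im| < κ := by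
    intro i t ht
    have m1 : Q.γ t ∈ P.arc i := hA i ▸ ⟨t, ht, rfl⟩
    refine ⟨_, mem_img.1 m1, ?_⟩
    have m2 : dist (P.H.symm (Q.γ t)) (P.H.symm (Q'.γ t)) < κ :=
      h1 (a := Q.γ t) (b := Q'.γ t) (by rw [dist_comm]; exact (hc t).trans_le (min_le_left _ _))
        ⟨_, rfl⟩
    rw [dist_comm, dist_eq_norm] at m2
    exact ⟨(Complex.abs_re_le_norm _).trans_lt m2, (Complex.abs_im_le_norm _).trans_lt m2⟩
  have near0 : ∀ z ∈ Q'.arc 0, (P.H.symm z).im < -1 + κ := by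
    rintro _ ⟨t, ht, rfl⟩
    obtain ⟨w, hw, -, m⟩ := near 0 t ht
    rw [show w.im = -1 from hw.2] at m
    linarith [(abs_lt.1 m).2]
  have near2 : ∀ z ∈ Q'.arc 2, 1 - κ < (P.H.symm z).im := by
    rintro _ ⟨t, ht, rfl⟩
    obtain ⟨w, hw, -, m⟩ := near 2 t ht
    rw [show w.im = 1 from hw.2] at m
    linarith [(abs_lt.1 m).1]
  have fr : ∀ z ∈ frontier Q'.D, (|(P.H.symm z).re| ≤ 1 + κ ∧ |(P.H.symm z).im| ≤ 1 + κ) ∧
      (|(P.H.symm z).re| ≤ a → z ∈ Q'.arc 0 ∨ z ∈ Q'.arc 2) := by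
    intro z hz
    obtain ⟨i, t, ht, rfl⟩ := frontier_arc Q' hz
    obtain ⟨w, hw, m1, m2⟩ := near i t ht
    have hs := side_subset_sq i hw
    have a1 := abs_sub_abs_le_abs_sub (P.H.symm (Q'.γ t)).re w.re
    have a2 := abs_sub_abs_le_abs_sub (P.H.symm (Q'.γ t)).im w.im
    refine ⟨⟨by linarith [hs.1], by linarith [hs.2]⟩, fun m => ?_⟩
    have m3 := abs_le.1 m
    have m4 := abs_lt.1 m1
    rcases H990.side_cases i hw with ⟨rfl, -⟩ | ⟨-, e, -⟩ | ⟨rfl, -⟩ | ⟨-, e, -⟩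
    · exact Or.inl ⟨t, ht, rfl⟩
    · rw [e] at m4; linarith [m3.2, m4.1]
    · exact Or.inr ⟨t, ht, rfl⟩
    · rw [e] at m4; linarith [m3.1, m4.2]
  have box : ∀ z ∈ closure Q'.D, |(P.H.symm z).re| ≤ 1 + κ ∧ |(P.H.symm z).im| ≤ 1 + κ := by
    intro z hz
    by_cases hzD : z ∈ Q'.D
    · refine subset_box (U := P.H.symm '' Q'.D) (P.H.symm.isOpenMap _ Q'.isOpen)
        ((Q'.isBounded.isCompact_closure.image P.H.symm.continuous).isBounded.subset
          (image_mono subset_closure)) (by linarith) ?_ _ (mem_image_of_mem _ hzD)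
      rw [← P.H.symm.image_frontier]
      rintro _ ⟨w, hw, rfl⟩
      exact (fr w hw).1
    · exact (fr z (by rw [Q'.isOpen.frontier_eq]; exact ⟨hz, hzD⟩)).1
  have mid : ∀ z, |(P.H.symm z).re| ≤ a → (P.H.symm z).im = 0 → z ∈ Q'.D := by
    have nf : ∀ z, |(P.H.symm z).re| ≤ a → (P.H.symm z).im = 0 → z ∈ closure Q'.D → z ∈ Q'.D := by
      intro z m1 m2 m3
      by_contra k
      rcases (fr z (by rw [Q'.isOpen.frontier_eq]; exact ⟨m3, k⟩)).2 m1 with m | m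
      · linarith [near0 z m]
      · linarith [near2 z m]
    have c0 : P.H 0 ∈ closure Q'.D := by
      refine mem_closure_of_close hQ z0 (fun t => (min_le_right δ₁ δ₂).trans ?_) hc
      by_contra! k
      exact (Q.isOpen.frontier_eq.subset (gamma_mem Q t)).2 (h2 k)
    have hpre : IsPreconnected ((fun t : ℝ => P.H t) '' Icc (-a) a) :=
      isPreconnected_Icc.image _ (by fun_prop)
    have hsub : (fun t : ℝ => P.H t) '' Icc (-a) a ⊆ Q'.D := by
      refine hpre.subset_of_closure_inter_subset Q'.isOpen ⟨P.H 0, ⟨0, ⟨by linarith, ha.le⟩, by simp⟩,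
        nf _ (by simpa using ha.le) (by simp) c0⟩ ?_
      rintro _ ⟨m, t, ht, rfl⟩
      exact nf _ (by simpa using abs_le.2 ht) (by simp) m
    intro z m1 m2
    refine hsub ⟨(P.H.symm z).re, abs_le.1 m1, ?_⟩
    show P.H (((P.H.symm z).re : ℝ) : ℂ) = z
    rw [show (((P.H.symm z).re : ℝ) : ℂ) = P.H.symm z from Complex.ext rfl (by simp [m2])]
    simp
  exact ⟨near0, near2, fun z hz => (fr z hz).2, box, mid⟩

/-- **Sandwich.** The crossing events of all quads close to `Q` are between the crossing events of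
a thinner and longer quad and of a wider and shorter one. -/
theorem sandwich {Q : JQuad} (hQ : Ccw Q) {P : Quad} (hD : P.D = Q.D) (hA : ∀ i, P.arc i = Q.arc i)
    {a b : ℝ} (ha : 0 < a) (hb : 0 < b) (ha1 : a < 1) (hb1 : 1 < b) :
    ∃ δ > 0, ∀ Q' : JQuad, Close δ Q' Q → ∀ R : Set ℂ, IsClosed R →
      ((sc P a b ha hb).Cross 0 2 R → Q'.Cross 0 2 R) ∧
      (Q'.Cross 0 2 R → (sc P b a hb ha).Cross 0 2 R) := by
  obtain ⟨δ, hδ, κ, k0, k1, k2, h⟩ := geom hQ hD hA ha ha1 hb1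
  refine ⟨δ, hδ, fun Q' hc R hR => ?_⟩
  obtain ⟨near0, near2, fr, box, mid⟩ := h Q' hc
  have fc : Continuous fun z => (P.H.symm z).im := by fun_prop
  constructor
  · rintro ⟨K, hK, hKc, ⟨p, hp, hp'⟩, q, hq, hq'⟩
    have hcl : closure K ⊆ R ∩ closure (sc P a b ha hb).D :=
      closure_minimal hK (hR.inter isClosed_closure)
    have hb' := fun z (hz : z ∈ closure K) => (mem_sc_cl P ha hb z).1 (hcl hz).2
    rw [mem_sc_0] at hp'
    rw [mem_sc_2] at hq'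
    obtain ⟨K', s1, s2⟩ := subcross
      ((Quad.isCompact_closure_D _).of_isClosed_subset isClosed_closure fun z hz => (hcl hz).2)
      hKc.isPreconnected.closure Q'.isOpen (arc_closed Q' 0) (arc_closed Q' 2) fc
      (fun z hz m => mid z (hb' z hz).1 m)
      (fun z hz m1 m2 => by
        have := fr z (by rw [Q'.isOpen.frontier_eq]; exact ⟨m1, m2⟩) (hb' z hz).1
        exact ⟨fun m => this.resolve_right fun k => by linarith [near2 z k],
          fun m => this.resolve_left fun k => by linarith [near0 z k]⟩)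
      ⟨p, subset_closure hp, fun k => by
        have := abs_le.1 (box p (subset_closure k)).2
        linarith [hp'.2], by linarith [hp'.2]⟩
      ⟨q, subset_closure hq, fun k => by
        have := abs_le.1 (box q (subset_closure k)).2
        linarith [hq'.2], by linarith [hq'.2]⟩
    exact ⟨K', fun z hz => ⟨(hcl (s1 hz).1).1, (s1 hz).2⟩, s2⟩
  · rintro ⟨K, hK, hKc, ⟨p, hp, hp'⟩, q, hq, hq'⟩
    have hcl : closure K ⊆ R ∩ closure Q'.D := closure_minimal hK (hR.inter isClosed_closure)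
    have hb' := fun z (hz : z ∈ closure K) => box z (hcl hz).2
    obtain ⟨K', s1, s2⟩ := subcross
      (Q'.isBounded.isCompact_closure.of_isClosed_subset isClosed_closure fun z hz => (hcl hz).2)
      hKc.isPreconnected.closure (Half.isOpen_D (sc P b a hb ha))
      (Quad.isCompact_arc (sc P b a hb ha) 0).isClosed
      (Quad.isCompact_arc (sc P b a hb ha) 2).isClosed fc
      (fun z hz m => (mem_sc_D P hb ha z).2 ⟨by linarith [(hb' z hz).1], by simpa [m] using ha⟩)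
      (fun z hz m1 m2 => by
        rw [mem_sc_cl] at m1
        rw [mem_sc_D] at m2
        have m3 : a ≤ |(P.H.symm z).im| := not_lt.1 fun k => m2 ⟨by linarith [(hb' z hz).1], k⟩
        rw [mem_sc_0, mem_sc_2]
        refine ⟨fun m => ⟨m1.1, ?_⟩, fun m => ⟨m1.1, ?_⟩⟩
        · have := m1.2
          rw [abs_of_nonpos m] at m3 this
          linarith
        · have := m1.2
          rw [abs_of_nonneg m] at m3 this
          linarith)
      ⟨p, subset_closure hp, fun k => by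
        have := abs_lt.1 ((mem_sc_D P hb ha p).1 k).2
        linarith [near0 p hp'], by linarith [near0 p hp']⟩
      ⟨q, subset_closure hq, fun k => by
        have := abs_lt.1 ((mem_sc_D P hb ha q).1 k).2
        linarith [near2 q hq'], by linarith [near2 q hq']⟩
    exact ⟨K', fun z hz => ⟨(hcl (s1 hz).1).1, (s1 hz).2⟩, s2⟩

/-- `R` is locally star-shaped. -/
def Star (R : Set ℂ) : Prop := ∀ z ∈ R, ∀ᶠ w in 𝓝 z, w ∈ R → segment ℝ z w ⊆ R

theorem joined {R W K : Set ℂ} (hR : Star R) (hW : IsOpen W) (hK : IsPreconnected K)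
    (hs : K ⊆ R ∩ W) {p q : ℂ} (hp : p ∈ K) (hq : q ∈ K) : JoinedIn (R ∩ W) p q := by
  refine hK.induction₂' (JoinedIn (R ∩ W)) (fun z hz => ?_) (fun _ _ _ _ _ _ a b => a.trans b) hp hq
  obtain ⟨r, hr, hb⟩ := Metric.isOpen_iff.1 hW z (hs hz).2
  filter_upwards [self_mem_nhdsWithin, mem_nhdsWithin_of_mem_nhds (hR z (hs hz).1),
    mem_nhdsWithin_of_mem_nhds (ball_mem_nhds z hr)] with w h1 h2 h3
  have : JoinedIn (R ∩ W) z w := JoinedIn.of_segment_subset (subset_inter (h2 (hs h1).1)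
    (((convex_ball z r).segment_subset (mem_ball_self hr) h3).trans hb))
  exact ⟨this, this.symm⟩

theorem PathCross.cross {Q : JQuad} {R : Set ℂ} (h : PathCross Q R) : Q.Cross 0 2 R := by
  obtain ⟨p, hc, h0, h1, hR, hD⟩ := h
  have fa : ∀ i, Q.arc i ⊆ closure Q.D := by
    rintro i _ ⟨t, -, rfl⟩
    exact frontier_subset_closure (gamma_mem Q t)
  refine ⟨p '' Icc 0 1, ?_, (isConnected_Icc zero_le_one).image p hc,
    ⟨p 0, ⟨0, left_mem_Icc.2 zero_le_one, rfl⟩, h0⟩, p 1, ⟨1, right_mem_Icc.2 zero_le_one, rfl⟩, h1⟩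
  rintro _ ⟨t, ht, rfl⟩
  refine ⟨hR t ht, ?_⟩
  rcases ht.1.eq_or_lt with rfl | k
  · exact fa 0 h0
  · rcases ht.2.eq_or_lt with rfl | k'
    · exact fa 2 h1
    · exact subset_closure (hD t ⟨k, k'⟩)

/-- The sandwich for paths. -/
theorem sandwich_path {Q : JQuad} (hQ : Ccw Q) {P : Quad} (hD : P.D = Q.D)
    (hA : ∀ i, P.arc i = Q.arc i) {a b : ℝ} (ha : 0 < a) (hb : 0 < b) (ha1 : a < 1) (hb1 : 1 < b) :
    ∃ δ > 0, ∀ Q' : JQuad, Close δ Q' Q → ∀ R : Set ℂ, Star R →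
      (sc P a b ha hb).Cross 0 2 R → PathCross Q' R := by
  obtain ⟨δ, hδ, κ, k0, k1, k2, h⟩ := geom hQ hD hA (a := (1 + a) / 2) (by linarith) (by linarith) hb1
  refine ⟨δ, hδ, fun Q' hc R hR => ?_⟩
  obtain ⟨near0, near2, fr, box, mid⟩ := h Q' hc
  rintro ⟨K, hK, hKc, ⟨p, hp, hp'⟩, q, hq, hq'⟩
  rw [mem_sc_0] at hp'
  rw [mem_sc_2] at hq'
  have fc : Continuous fun z => (P.H.symm z).im := by fun_prop
  have hW : IsOpen {z | |(P.H.symm z).re| < (1 + a) / 2} := isOpen_lt (by fun_prop) continuous_const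
  obtain ⟨g, hg⟩ := joined hR hW hKc.isPreconnected (fun z hz => ⟨(hK hz).1, by
    have := ((mem_sc_cl P ha hb z).1 (hK hz).2).1
    show |(P.H.symm z).re| < (1 + a) / 2
    linarith⟩) hp hq
  have gc : Continuous g.extend := g.continuous_extend
  have gm : ∀ t, g.extend t ∈ R ∩ {z | |(P.H.symm z).re| < (1 + a) / 2} := fun t => hg _
  have out : ∀ z, 1 + κ < |(P.H.symm z).im| → z ∉ Q'.D := fun z k m =>
    absurd (box z (subset_closure m)).2 (not_le.2 k)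
  have cD : IsClosed {t : ℝ | g.extend t ∉ Q'.D} := Q'.isOpen.isClosed_compl.preimage gc
  obtain ⟨t0, ⟨⟨a0, a1⟩, a2⟩, a3⟩ := ((isCompact_Icc (a := (0 : ℝ)) (b := 1)).inter_right cD
    |>.inter_right (isClosed_le (fc.comp gc) (continuous_const (y := (0 : ℝ))))).exists_isGreatest
    ⟨0, ⟨left_mem_Icc.2 zero_le_one, by
      show g.extend 0 ∉ _
      rw [g.extend_zero]
      exact out p (by rw [hp'.2, abs_neg, abs_of_pos hb]; linarith)⟩, by
      show (P.H.symm (g.extend 0)).im ≤ 0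
      rw [g.extend_zero, hp'.2]
      linarith⟩
  obtain ⟨t1, ⟨⟨b0, b1⟩, b2⟩, b3⟩ := ((isCompact_Icc (a := t0) (b := 1)).inter_right cD
    |>.inter_right (isClosed_le (continuous_const (y := (0 : ℝ))) (fc.comp gc))).exists_isLeast
    ⟨1, ⟨right_mem_Icc.2 a0.2, by
      show g.extend 1 ∉ _
      rw [g.extend_one]
      exact out q (by rw [hq'.2, abs_of_pos hb]; linarith)⟩, by
      show 0 ≤ (P.H.symm (g.extend 1)).im
      rw [g.extend_one, hq'.2]
      linarith⟩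
  have a2' : (P.H.symm (g.extend t0)).im ≤ 0 := a2
  have b2' : 0 ≤ (P.H.symm (g.extend t1)).im := b2
  have lt : t0 < t1 := b0.1.lt_of_ne fun e => a1 (mid _ (gm t0).2.le (le_antisymm a2' (e ▸ b2')))
  have ins : ∀ t ∈ Ioo t0 t1, g.extend t ∈ Q'.D := fun t ht => by
    by_contra k
    rcases le_total (P.H.symm (g.extend t)).im 0 with m | m
    · exact absurd (a3 ⟨⟨⟨a0.1.trans ht.1.le, ht.2.le.trans b0.2⟩, k⟩, m⟩) (not_le.2 ht.1)
    · exact absurd (b3 ⟨⟨⟨ht.1.le, ht.2.le.trans b0.2⟩, k⟩, m⟩) (not_le.2 ht.2)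
  have cl : ∀ t ∈ Icc t0 t1, g.extend t ∈ closure Q'.D := fun t ht => by
    rw [← closure_Ioo lt.ne] at ht
    exact closure_mono (image_subset_iff.2 ins) (image_closure_subset_closure_image gc ⟨t, ht, rfl⟩)
  have e0 := fr _ (by rw [Q'.isOpen.frontier_eq]; exact ⟨cl t0 (left_mem_Icc.2 lt.le), a1⟩)
    (gm t0).2.le
  have e1 := fr _ (by rw [Q'.isOpen.frontier_eq]; exact ⟨cl t1 (right_mem_Icc.2 lt.le), b1⟩)
    (gm t1).2.le
  refine ⟨fun s => g.extend (t0 + s * (t1 - t0)), (gc.comp (by fun_prop)).continuousOn, ?_, ?_,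
    fun s _ => (gm _).1, fun s hs => ins _ ⟨by nlinarith [hs.1], by nlinarith [hs.2]⟩⟩
  · simp only [zero_mul, add_zero]
    exact e0.resolve_right fun k => by linarith [near2 _ k]
  · simp only [one_mul, add_sub_cancel]
    exact e1.resolve_left fun k => by linarith [near0 _ k]

theorem loc_cells {Y : Set ℂ} (hY : ∀ r, (Y ∩ ball 0 r).Finite) (z : ℂ) :
    ∀ᶠ w in 𝓝 z, ∀ v ∈ Y, w ∈ vcell Y v → z ∈ vcell Y v := by
  rcases Y.eq_empty_or_nonempty with rfl | ⟨y, hy⟩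
  · simp
  have h1 : ∀ᶠ w in 𝓝 z, ∀ v ∈ Y ∩ ball 0 (‖z‖ + dist z y + 2), w ∈ vcell Y v → z ∈ vcell Y v := by
    refine (hY _).eventually_all.2 fun v _ => ?_
    by_cases k : z ∈ vcell Y v
    · exact Eventually.of_forall fun _ _ => k
    · filter_upwards [(isClosed_vcell Y v).isOpen_compl.mem_nhds k] with w h1 h2
      exact absurd h2 h1
  filter_upwards [h1, ball_mem_nhds z one_pos] with w h2 h3 v hv hw
  refine h2 v ⟨hv, ?_⟩ hw
  rw [mem_ball] at h3 ⊢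
  have e1 := hw y hy
  have e2 := dist_triangle w z y
  have e3 := dist_triangle4 v w z 0
  rw [dist_zero_right z, dist_comm v w] at e3
  linarith

theorem cells_closed {Y W : Set ℂ} (hY : ∀ r, (Y ∩ ball 0 r).Finite) (hW : W ⊆ Y) :
    IsClosed (⋃ v ∈ W, vcell Y v) := by
  refine isClosed_of_closure_subset fun z hz => ?_
  obtain ⟨w, h1, h2⟩ := ((mem_closure_iff_frequently.1 hz).and_eventually (loc_cells hY z)).exists
  obtain ⟨v, hv, h3⟩ := mem_iUnion₂.1 h1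
  exact mem_biUnion hv (h2 v (hW hv) h3)

theorem cells_star {Y W : Set ℂ} (hY : ∀ r, (Y ∩ ball 0 r).Finite) (hW : W ⊆ Y) :
    Star (⋃ v ∈ W, vcell Y v) := by
  intro z _
  filter_upwards [loc_cells hY z] with w h1 h2
  obtain ⟨v, hv, h3⟩ := mem_iUnion₂.1 h2
  exact ((convex_vcell Y v).segment_subset (h1 v (hW hv) h3) h3).trans
    (subset_biUnion_of_mem (u := vcell Y) hv)

end Vale.Agent.N148
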